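import Vale.Agent.P141.H103.MidK

/-!
# P141, line (A): the moving slot with the weight `β + R²`

Slot `R c`, `R` symmetric and moving with the middle cell (`R ± D` on the two halves). The weight
`M = β + R²` in `H103.QW` (the Gram matrix of `(√β c, R c)`) makes the own middle inequality and
the middle inequality against a static slot hold with defects which are products of two square
summable quantities; the cross terms are absorbed by the gains of the same functional.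
-/

namespace Vale.Agent.P141.H258

open Finset Matrix Vale.Agent.P141.PL Vale.Agent.P141.PL.H103 Vale.Agent.P141.H103
open Vale.Agent.P075 (Ix val)

noncomputable section

/-! ### Hilbert–Schmidt form -/

section node

variable {κ κ' : Type*} [Fintype κ] [Fintype κ']

/-- Hilbert–Schmidt form -/
def ip (X Y : Matrix κ κ' ℝ) : ℝ := (Xᵀ * Y).trace

theorem ip_eq_sum (X Y : Matrix κ κ' ℝ) : ip X Y = ∑ j, ∑ i, X i j * Y i j := by
  simp only [ip, trace, diag_apply, mul_apply, transpose_apply]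

theorem ip_self_nonneg (X : Matrix κ κ' ℝ) : 0 ≤ ip X X := by
  rw [ip_eq_sum]
  exact sum_nonneg fun _ _ => sum_nonneg fun _ _ => mul_self_nonneg _

theorem ip_comm (X Y : Matrix κ κ' ℝ) : ip X Y = ip Y X := by
  simp only [ip_eq_sum, mul_comm]

theorem ip_add_left (X Y Z : Matrix κ κ' ℝ) : ip (X + Y) Z = ip X Z + ip Y Z := by
  simp only [ip, transpose_add, Matrix.add_mul, trace_add]

theorem ip_add_right (X Y Z : Matrix κ κ' ℝ) : ip X (Y + Z) = ip X Y + ip X Z := by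
  simp only [ip, Matrix.mul_add, trace_add]

theorem ip_sub_left (X Y Z : Matrix κ κ' ℝ) : ip (X - Y) Z = ip X Z - ip Y Z := by
  simp only [ip, transpose_sub, Matrix.sub_mul, trace_sub]

theorem ip_sub_right (X Y Z : Matrix κ κ' ℝ) : ip X (Y - Z) = ip X Y - ip X Z := by
  simp only [ip, Matrix.mul_sub, trace_sub]

theorem ip_smul_left (r : ℝ) (X Y : Matrix κ κ' ℝ) : ip (r • X) Y = r * ip X Y := by
  simp only [ip, transpose_smul, Matrix.smul_mul, trace_smul, smul_eq_mul]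

theorem ip_smul_right (r : ℝ) (X Y : Matrix κ κ' ℝ) : ip X (r • Y) = r * ip X Y := by
  simp only [ip, Matrix.mul_smul, trace_smul, smul_eq_mul]

/-- moving a symmetric factor, left -/
theorem ip_mul_left {A : Matrix κ κ ℝ} (hA : Aᵀ = A) (X Y : Matrix κ κ' ℝ) :
    ip (A * X) Y = ip X (A * Y) := by
  rw [ip, ip, transpose_mul, hA, Matrix.mul_assoc]

/-- moving a symmetric factor, right -/
theorem ip_mul_right {A : Matrix κ' κ' ℝ} (hA : Aᵀ = A) (X Y : Matrix κ κ' ℝ) :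
    ip (X * A) Y = ip X (Y * A) := by
  rw [ip, ip, transpose_mul, hA, Matrix.mul_assoc, trace_mul_comm, Matrix.mul_assoc]

theorem ip_transpose (X Y : Matrix κ κ' ℝ) : ip Xᵀ Yᵀ = ip X Y := by
  rw [ip_eq_sum, ip_eq_sum, Finset.sum_comm]
  rfl

theorem ip_half (E O : Matrix κ κ' ℝ) :
    (1 / 2) * (ip (E + O) (E + O) + ip (E - O) (E - O)) = ip E E + ip O O := by
  simp only [ip_add_left, ip_add_right, ip_sub_left, ip_sub_right]
  ring

/-- `2 <a, b> ≥ - t |a|² - t⁻¹ |b|²` -/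
theorem ip_young {t : ℝ} (ht : 0 < t) (X Y : Matrix κ κ' ℝ) :
    -(t * ip X X) - t⁻¹ * ip Y Y ≤ 2 * ip X Y := by
  have h := ip_self_nonneg (t • X + Y)
  simp only [ip_add_left, ip_add_right, ip_smul_left, ip_smul_right] at h
  rw [ip_comm Y X] at h
  have h2 : 0 ≤ t⁻¹ * (t * (t * ip X X) + t * ip X Y + (t * ip X Y + ip Y Y)) := by
    refine mul_nonneg (inv_pos.2 ht).le ?_
    linarith
  have h3 : t⁻¹ * (t * (t * ip X X) + t * ip X Y + (t * ip X Y + ip Y Y))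
      = t * ip X X + 2 * ip X Y + t⁻¹ * ip Y Y := by
    field_simp
    ring
  linarith

theorem ip_add_ge (X Y : Matrix κ κ' ℝ) : ip X X + 2 * ip X Y ≤ ip (X + Y) (X + Y) := by
  have := ip_self_nonneg Y
  simp only [ip_add_left, ip_add_right]
  rw [ip_comm Y X]
  linarith

theorem ip_add_ge' (X Y : Matrix κ κ' ℝ) :
    (1 / 2) * ip X X - ip Y Y ≤ ip (X + Y) (X + Y) := by
  have := ip_self_nonneg (X + (2 : ℝ) • Y)
  simp only [ip_add_left, ip_add_right, ip_smul_left, ip_smul_right] at this ⊢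
  rw [ip_comm Y X] at this ⊢
  linarith

theorem ip_eq_cols (X : Matrix κ κ' ℝ) :
    ip X X = ∑ j, (fun i => X i j) ⬝ᵥ (fun i => X i j) := by
  simp only [ip_eq_sum, dotProduct]

/-- cap, left -/
theorem ip_cap_left {A : Matrix κ κ ℝ} {Q : ℝ} (hA : ∀ v, (A *ᵥ v) ⬝ᵥ (A *ᵥ v) ≤ Q * (v ⬝ᵥ v))
    (X : Matrix κ κ' ℝ) : ip (A * X) (A * X) ≤ Q * ip X X := by
  rw [ip_eq_cols, ip_eq_cols, mul_sum]
  exact sum_le_sum fun j _ => hA fun i => X i j

/-- cap, right -/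
theorem ip_cap_right {A : Matrix κ' κ' ℝ} {Q : ℝ} (sA : Aᵀ = A)
    (hA : ∀ v, (A *ᵥ v) ⬝ᵥ (A *ᵥ v) ≤ Q * (v ⬝ᵥ v))
    (X : Matrix κ κ' ℝ) : ip (X * A) (X * A) ≤ Q * ip X X := by
  rw [← ip_transpose, ← ip_transpose X X, transpose_mul, sA]
  exact ip_cap_left hA _

variable [DecidableEq κ] [DecidableEq κ']

/-- the weight -/
def wt (β : ℝ) (R : Matrix κ κ ℝ) : Matrix κ κ ℝ := β • 1 + R * R

omit [Fintype κ'] [DecidableEq κ'] in
theorem wt_symm {β : ℝ} {R : Matrix κ κ ℝ} (hR : Rᵀ = R) : (wt β R)ᵀ = wt β R := by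
  rw [wt, transpose_add, transpose_smul, transpose_one, transpose_mul, hR]

omit [Fintype κ'] [DecidableEq κ'] in
theorem wt_psd {β : ℝ} (hβ : 0 ≤ β) {R : Matrix κ κ ℝ} (hR : Rᵀ = R) : (wt β R).PosSemidef := by
  refine (PosSemidef.one.smul hβ).add ?_
  have h := posSemidef_conjTranspose_mul_self R
  rwa [conjTranspose_eq_transpose_of_trivial, hR] at h

theorem wt_own {β : ℝ} {R : Matrix κ κ ℝ} {R' : Matrix κ' κ' ℝ} (hR : Rᵀ = R) (hR' : R'ᵀ = R')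
    (W : Matrix κ κ' ℝ) :
    (Wᵀ * (wt β R * W * wt β R')).trace
      = β ^ 2 * ip W W + β * ip (R * W) (R * W) + β * ip (W * R') (W * R')
        + ip (R * W * R') (R * W * R') := by
  have e0 : wt β R * W * wt β R' = β ^ 2 • W + β • (R * (R * W)) + β • (W * R' * R')
      + R * (R * W * R') * R' := by
    unfold wt
    simp only [Matrix.add_mul, Matrix.mul_add, Matrix.smul_mul, Matrix.mul_smul, Matrix.one_mul,
      Matrix.mul_one, ← Matrix.mul_assoc, smul_add]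
    rw [pow_two β, ← smul_smul]
    abel
  have e1 : (Wᵀ * (wt β R * W * wt β R')).trace = ip W (wt β R * W * wt β R') := rfl
  rw [e1, e0]
  simp only [ip_add_right, ip_smul_right]
  rw [← ip_mul_left hR W (R * W), ← ip_mul_right hR' W (W * R'),
    ← ip_mul_right hR' W (R * (R * W * R')), ← ip_mul_left hR (W * R') (R * W * R')]
  rw [← Matrix.mul_assoc R W R']

/-- **own middle inequality at one pair of rows** -/
theorem node_own {β Q : ℝ} (hβ : 0 < β) {R D : Matrix κ κ ℝ} {R' D' : Matrix κ' κ' ℝ}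
    (hR : Rᵀ = R) (hD : Dᵀ = D) (hR' : R'ᵀ = R') (hD' : D'ᵀ = D')
    (cR : ∀ v, (R *ᵥ v) ⬝ᵥ (R *ᵥ v) ≤ Q * (v ⬝ᵥ v))
    (cR' : ∀ v, (R' *ᵥ v) ⬝ᵥ (R' *ᵥ v) ≤ Q * (v ⬝ᵥ v)) (W V : Matrix κ κ' ℝ) :
    (Wᵀ * (wt β R * W * wt β R')).trace
      ≤ (1 / 2) * (((W + V)ᵀ * (wt β (R + D) * (W + V) * wt β (R' + D'))).trace
        + ((W - V)ᵀ * (wt β (R - D) * (W - V) * wt β (R' - D'))).trace)
        + (2 + 3 * Q / β) * (ip (D * (R * W)) (D * (R * W)) + ip (W * R' * D') (W * R' * D'))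
        + 2 * β * (ip (D * W) (D * W) + ip (W * D') (W * D')) := by
  have sp : (R + D)ᵀ = R + D := by rw [transpose_add, hR, hD]
  have sm : (R - D)ᵀ = R - D := by rw [transpose_sub, hR, hD]
  have sp' : (R' + D')ᵀ = R' + D' := by rw [transpose_add, hR', hD']
  have sm' : (R' - D')ᵀ = R' - D' := by rw [transpose_sub, hR', hD']
  rw [wt_own hR hR', wt_own sp sp', wt_own sm sm']
  -- the four means
  have m1 := ip_half W V
  have e2p : (R + D) * (W + V) = (R * W + D * V) + (R * V + D * W) := by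
    simp only [Matrix.add_mul, Matrix.mul_add]; abel
  have e2m : (R - D) * (W - V) = (R * W + D * V) - (R * V + D * W) := by
    simp only [Matrix.sub_mul, Matrix.mul_sub]; abel
  have e3p : (W + V) * (R' + D') = (W * R' + V * D') + (V * R' + W * D') := by
    simp only [Matrix.add_mul, Matrix.mul_add]; abel
  have e3m : (W - V) * (R' - D') = (W * R' + V * D') - (V * R' + W * D') := by
    simp only [Matrix.sub_mul, Matrix.mul_sub]; abel
  have e4p : (R + D) * (W + V) * (R' + D')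
      = (R * W * R' + (R * V * D' + D * V * R' + D * W * D'))
        + (R * V * R' + R * W * D' + D * W * R' + D * V * D') := by
    simp only [Matrix.add_mul, Matrix.mul_add]; abel
  have e4m : (R - D) * (W - V) * (R' - D')
      = (R * W * R' + (R * V * D' + D * V * R' + D * W * D'))
        - (R * V * R' + R * W * D' + D * W * R' + D * V * D') := by
    simp only [Matrix.sub_mul, Matrix.mul_sub]; abel
  have m2 := ip_half (R * W + D * V) (R * V + D * W)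
  have m3 := ip_half (W * R' + V * D') (V * R' + W * D')
  have m4 := ip_half (R * W * R' + (R * V * D' + D * V * R' + D * W * D'))
    (R * V * R' + R * W * D' + D * W * R' + D * V * D')
  rw [← e2p, ← e2m] at m2
  rw [← e3p, ← e3m] at m3
  rw [← e4p, ← e4m] at m4
  -- lower bounds
  have a2 := ip_add_ge (R * W) (D * V)
  have b2 := ip_add_ge' (R * V) (D * W)
  have a3 := ip_add_ge (W * R') (V * D')
  have b3 := ip_add_ge' (V * R') (W * D')
  have a4 := ip_add_ge (R * W * R') (R * V * D' + D * V * R' + D * W * D')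
  have b4 := ip_self_nonneg (R * V * R' + R * W * D' + D * W * R' + D * V * D')
  simp only [ip_add_right (R * W * R')] at a4
  -- the cross terms
  have c2 : ip (R * W) (D * V) = ip V (D * (R * W)) := by
    rw [← ip_mul_left hD, ip_comm]
  have c3 : ip (W * R') (V * D') = ip V (W * R' * D') := by
    rw [← ip_mul_right hD', ip_comm]
  have c4 : ip (R * W * R') (R * V * D') = ip (R * V) (R * (W * R' * D')) := by
    rw [← ip_mul_right hD', ip_comm, ← Matrix.mul_assoc, ← Matrix.mul_assoc]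
  have c5 : ip (R * W * R') (D * V * R') = ip (V * R') (D * (R * W) * R') := by
    rw [Matrix.mul_assoc D V R', ← ip_mul_left hD, ip_comm, Matrix.mul_assoc D (R * W) R']
  have c6 : ip (R * W * R') (D * W * D') = ip (W * D') (D * (R * W) * R') := by
    rw [Matrix.mul_assoc D W D', ← ip_mul_left hD, ip_comm, Matrix.mul_assoc D (R * W) R']
  rw [c2] at a2
  rw [c3] at a3
  rw [c4, c5, c6] at a4
  have hβ2 : 0 < β / 2 := by positivity
  have y1 := ip_young hβ2 V (D * (R * W))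
  have y2 := ip_young hβ2 V (W * R' * D')
  have y3 := ip_young hβ2 (R * V) (R * (W * R' * D'))
  have y4 := ip_young hβ2 (V * R') (D * (R * W) * R')
  have y5 := ip_young hβ (W * D') (D * (R * W) * R')
  have k1 := ip_cap_left cR (W * R' * D')
  have k2 := ip_cap_right hR' cR' (D * (R * W))
  have i1 : (β / 2)⁻¹ = 2 / β := by rw [inv_div]
  rw [i1] at y1 y2 y3 y4
  have i2 : 0 < 2 / β := by positivity
  have i3 : 0 < β⁻¹ := by positivity
  have k3 := mul_le_mul_of_nonneg_left k1 i2.le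
  have k4 := mul_le_mul_of_nonneg_left k2 i2.le
  have k5 := mul_le_mul_of_nonneg_left k2 i3.le
  have b2' := mul_le_mul_of_nonneg_left b2 hβ.le
  have b3' := mul_le_mul_of_nonneg_left b3 hβ.le
  have a2' := mul_le_mul_of_nonneg_left a2 hβ.le
  have a3' := mul_le_mul_of_nonneg_left a3 hβ.le
  have y1' := mul_le_mul_of_nonneg_left y1 hβ.le
  have y2' := mul_le_mul_of_nonneg_left y2 hβ.le
  have f1 : β * (-(β / 2 * ip V V) - 2 / β * ip (D * (R * W)) (D * (R * W)))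
      = -(β ^ 2 / 2 * ip V V) - 2 * ip (D * (R * W)) (D * (R * W)) := by
    field_simp
  have f2 : β * (-(β / 2 * ip V V) - 2 / β * ip (W * R' * D') (W * R' * D'))
      = -(β ^ 2 / 2 * ip V V) - 2 * ip (W * R' * D') (W * R' * D') := by
    field_simp
  rw [f1] at y1'
  rw [f2] at y2'
  have g1 : 2 / β * (Q * ip (W * R' * D') (W * R' * D'))
      = 2 * (Q / β) * ip (W * R' * D') (W * R' * D') := by ring
  have g2 : 2 / β * (Q * ip (D * (R * W)) (D * (R * W)))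
      = 2 * (Q / β) * ip (D * (R * W)) (D * (R * W)) := by ring
  have g3 : β⁻¹ * (Q * ip (D * (R * W)) (D * (R * W)))
      = (Q / β) * ip (D * (R * W)) (D * (R * W)) := by ring
  rw [g1] at k3
  rw [g2] at k4
  rw [g3] at k5
  have g4 : 0 ≤ (Q / β) * ip (W * R' * D') (W * R' * D') := by
    have h0 : 0 ≤ Q * ip (W * R' * D') (W * R' * D') := (ip_self_nonneg _).trans k1
    have := mul_nonneg i3.le h0
    have e : β⁻¹ * (Q * ip (W * R' * D') (W * R' * D')) = (Q / β) * ip (W * R' * D') (W * R' * D') := by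
      ring
    linarith
  have n1 := mul_nonneg hβ.le (ip_self_nonneg (D * W))
  have m1' : β ^ 2 * ((1 / 2) * (ip (W + V) (W + V) + ip (W - V) (W - V)))
      = β ^ 2 * (ip W W + ip V V) := by rw [m1]
  have m2' : β * ((1 / 2) * (ip ((R + D) * (W + V)) ((R + D) * (W + V))
      + ip ((R - D) * (W - V)) ((R - D) * (W - V))))
      = β * (ip (R * W + D * V) (R * W + D * V) + ip (R * V + D * W) (R * V + D * W)) := by rw [m2]
  have m3' : β * ((1 / 2) * (ip ((W + V) * (R' + D')) ((W + V) * (R' + D'))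
      + ip ((W - V) * (R' - D')) ((W - V) * (R' - D'))))
      = β * (ip (W * R' + V * D') (W * R' + V * D') + ip (V * R' + W * D') (V * R' + W * D')) := by
    rw [m3]
  have s1 : (2 + 3 * Q / β) * (ip (D * (R * W)) (D * (R * W)) + ip (W * R' * D') (W * R' * D'))
      = 2 * ip (D * (R * W)) (D * (R * W)) + 2 * ip (W * R' * D') (W * R' * D')
        + 3 * ((Q / β) * ip (D * (R * W)) (D * (R * W)))
        + 3 * ((Q / β) * ip (W * R' * D') (W * R' * D')) := by ring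
  rw [s1]
  linarith [m1', m2', m3', m4, a2', b2', a3', b3', a4, b4, y1', y2', y3, y4, y5, k3, k4, k5, g4, n1]


omit [Fintype κ'] [DecidableEq κ'] in
theorem wt_quad {β : ℝ} {R : Matrix κ κ ℝ} (hR : Rᵀ = R) (q : κ → ℝ) :
    q ⬝ᵥ wt β R *ᵥ q = β * (q ⬝ᵥ q) + (R *ᵥ q) ⬝ᵥ (R *ᵥ q) := by
  rw [wt, add_mulVec, dotProduct_add, smul_mulVec, one_mulVec, dotProduct_smul, smul_eq_mul,
    ← mulVec_mulVec, dotProduct_mulVec q R, ← mulVec_transpose, hR]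

omit [Fintype κ'] [DecidableEq κ'] [DecidableEq κ] in
theorem dp_young {t : ℝ} (ht : 0 < t) (a b : κ → ℝ) :
    -(t * (a ⬝ᵥ a)) - t⁻¹ * (b ⬝ᵥ b) ≤ 2 * (a ⬝ᵥ b) := by
  have h := ip_young ht (Matrix.of fun i (_ : Unit) => a i) (Matrix.of fun i (_ : Unit) => b i)
  simpa [ip_eq_sum, dotProduct] using h

omit [Fintype κ'] [DecidableEq κ'] [DecidableEq κ] in
theorem dp_nonneg (a : κ → ℝ) : 0 ≤ a ⬝ᵥ a := by
  simp only [dotProduct]
  exact sum_nonneg fun _ _ => mul_self_nonneg _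

omit [Fintype κ'] [DecidableEq κ'] in
/-- **middle inequality at one pair of rows** -/
theorem node_mid {β : ℝ} (hβ : 0 < β) {R D : Matrix κ κ ℝ} (hR : Rᵀ = R) (hD : Dᵀ = D)
    (q p : κ → ℝ) :
    q ⬝ᵥ wt β R *ᵥ q + ((β / 2) * (p ⬝ᵥ p) + (1 / 2) * ((R *ᵥ p) ⬝ᵥ (R *ᵥ p)))
      ≤ (1 / 2) * ((q + p) ⬝ᵥ wt β (R + D) *ᵥ (q + p) + (q - p) ⬝ᵥ wt β (R - D) *ᵥ (q - p))
        + ((2 / β) * ((D *ᵥ (R *ᵥ q)) ⬝ᵥ (D *ᵥ (R *ᵥ q))) + (D *ᵥ q) ⬝ᵥ (D *ᵥ q)) := by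
  have sp : (R + D)ᵀ = R + D := by rw [transpose_add, hR, hD]
  have sm : (R - D)ᵀ = R - D := by rw [transpose_sub, hR, hD]
  rw [wt_quad hR, wt_quad sp, wt_quad sm]
  have y := dp_young (show 0 < β / 2 by positivity) p (D *ᵥ (R *ᵥ q))
  rw [inv_div] at y
  have e1 : (R *ᵥ q) ⬝ᵥ (D *ᵥ p) = p ⬝ᵥ (D *ᵥ (R *ᵥ q)) := by
    rw [dotProduct_mulVec, ← mulVec_transpose, hD, dotProduct_comm]
  have n1 := dp_nonneg (D *ᵥ p)
  have n2 := dp_nonneg (R *ᵥ p + (2 : ℝ) • D *ᵥ q)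
  have n3 := dp_nonneg (D *ᵥ q)
  simp only [add_mulVec, sub_mulVec, mulVec_add, mulVec_sub, dotProduct_add, add_dotProduct,
    dotProduct_sub, sub_dotProduct, dotProduct_smul, smul_dotProduct, smul_eq_mul] at n2 ⊢
  rw [dotProduct_comm (D *ᵥ p) (R *ᵥ q), e1, dotProduct_comm (D *ᵥ q) (R *ᵥ p),
    dotProduct_comm (D *ᵥ q) (R *ᵥ q), dotProduct_comm (D *ᵥ p) (R *ᵥ p),
    dotProduct_comm (R *ᵥ p) (R *ᵥ q), dotProduct_comm (D *ᵥ p) (D *ᵥ q),
    dotProduct_comm (D *ᵥ q) (D *ᵥ p)] at *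
  nlinarith [y, n1, n2, n3]

end node

/-! ### Gram matrices -/

section gram

variable {κ κ' : Type*} [Fintype κ] [Fintype κ']

omit [Fintype κ] [Fintype κ'] in
theorem XR_transpose (k : ℕ) (b : ℤ → ℤ → κ → ℝ) (b' : ℤ → ℤ → κ' → ℝ) (x x' m : ℤ) :
    (XR k b b' x x' m)ᵀ = XR k b' b x' x m := by
  unfold XR
  rw [transpose_smul, transpose_sum]
  simp only [transpose_vecMulVec]

omit [Fintype κ] [Fintype κ'] in
theorem XR_half (k : ℕ) (b : ℤ → ℤ → κ → ℝ) (b' : ℤ → ℤ → κ' → ℝ) (x x' m : ℤ) :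
    XR (k + 1) b b' x x' m
        + (1 / 2 : ℝ) • (XR k b b' x x' (2 * m) - XR k b b' x x' (2 * m + 1))
      = XR k b b' x x' (2 * m) ∧
    XR (k + 1) b b' x x' m
        - (1 / 2 : ℝ) • (XR k b b' x x' (2 * m) - XR k b b' x x' (2 * m + 1))
      = XR k b b' x x' (2 * m + 1) := by
  rw [XR_step]
  constructor <;> module

/-- sum over sub-cells -/
theorem sum_sub {N a : ℕ} (ha : a ≤ N) (R : ℤ) (f : ℤ → ℤ → ℝ) :
    ∑ n ∈ iv (N - a) R, ∑ x ∈ iv a n, f n x = ∑ x ∈ iv N R, f (ix a x) x := by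
  have h1 : ∀ x ∈ iv N R, ix a x ∈ iv (N - a) R := by
    intro x hx
    rw [mem_iv, ix_ix, Nat.add_sub_cancel' ha]
    exact mem_iv.1 hx
  rw [← Finset.sum_fiberwise_of_maps_to h1]
  refine Finset.sum_congr rfl fun n hn => ?_
  have h2 : (iv N R).filter (fun x => ix a x = n) = iv a n := by
    ext x
    rw [mem_filter, mem_iv, mem_iv]
    constructor
    · exact fun h => h.2
    · intro h
      refine ⟨?_, h⟩
      rw [mem_iv, ← h, ix_ix, Nat.add_sub_cancel' ha] at hn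
      exact hn
  rw [h2]
  refine Finset.sum_congr rfl fun x hx => ?_
  rw [mem_iv.1 hx]

/-- energy of `L b` on one cell at the row `x` -/
def en2 (L : Matrix κ κ ℝ) (b : ℤ → ℤ → κ → ℝ) (x : ℤ) (k : ℕ) (m : ℤ) : ℝ :=
  ((2 : ℝ) ^ k)⁻¹ * ∑ y ∈ iv k m, (L *ᵥ b x y) ⬝ᵥ (L *ᵥ b x y)

/-- cap of a static slot on the rectangle (outer cell `n` of scale `a`) × (middle cell `m` of scale
`k`) -/
def Cap (s2 : ℝ) (b : ℤ → ℤ → κ → ℝ) (a k : ℕ) (n m : ℤ) : Prop :=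
  ∀ u : ℤ → ℝ, ∑ x ∈ iv a n, qK (fun _ => u) b 0 x k m ⬝ᵥ qK (fun _ => u) b 0 x k m
    ≤ (2 : ℝ) ^ a * s2 * (((2 : ℝ) ^ k)⁻¹ * ∑ y ∈ iv k m, u y ^ 2)

omit [Fintype κ] in
theorem qK_apply (A : ℤ → ℤ → ℝ) (b : ℤ → ℤ → κ → ℝ) (z x : ℤ) (k : ℕ) (m : ℤ) (i : κ) :
    qK A b z x k m i = ((2 : ℝ) ^ k)⁻¹ * ∑ y ∈ iv k m, A z y * b x y i := by
  simp only [qK, Pi.smul_apply, Finset.sum_apply, smul_eq_mul]

omit [Fintype κ'] in
theorem LXR_apply (L : Matrix κ κ ℝ) (b : ℤ → ℤ → κ → ℝ) (b' : ℤ → ℤ → κ' → ℝ) (x x' : ℤ)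
    (k : ℕ) (m : ℤ) (i : κ) (j : κ') :
    (L * XR k b b' x x' m) i j = qK (fun _ y => (L *ᵥ b x y) i) b' 0 x' k m j := by
  rw [qK_apply, XR, Matrix.mul_smul, Matrix.smul_apply, Matrix.mul_sum, Matrix.sum_apply,
    smul_eq_mul]
  congr 1
  refine Finset.sum_congr rfl fun y _ => ?_
  rw [mul_vecMulVec, vecMulVec_apply]

/-- the cap pays `L W` -/
theorem ip_LXR_le {s2 : ℝ} (L : Matrix κ κ ℝ) (b : ℤ → ℤ → κ → ℝ) (b' : ℤ → ℤ → κ' → ℝ)
    {a k : ℕ} {n m : ℤ} (hc : Cap s2 b' a k n m) (x : ℤ) :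
    ∑ x' ∈ iv a n, ip (L * XR k b b' x x' m) (L * XR k b b' x x' m)
      ≤ (2 : ℝ) ^ a * s2 * en2 L b x k m := by
  have h1 : ∀ x', ip (L * XR k b b' x x' m) (L * XR k b b' x x' m)
      = ∑ i, qK (fun _ y => (L *ᵥ b x y) i) b' 0 x' k m ⬝ᵥ
          qK (fun _ y => (L *ᵥ b x y) i) b' 0 x' k m := by
    intro x'
    rw [ip_eq_sum, Finset.sum_comm]
    refine Finset.sum_congr rfl fun i _ => ?_
    simp only [dotProduct, LXR_apply]
  simp only [h1]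
  rw [Finset.sum_comm]
  refine (Finset.sum_le_sum fun i _ => hc fun y => (L *ᵥ b x y) i).trans (le_of_eq ?_)
  rw [← Finset.mul_sum, ← Finset.mul_sum, en2, Finset.sum_comm]
  congr 2
  refine Finset.sum_congr rfl fun y _ => ?_
  simp only [dotProduct, pow_two]

theorem en2_nonneg (L : Matrix κ κ ℝ) (b : ℤ → ℤ → κ → ℝ) (x : ℤ) (k : ℕ) (m : ℤ) :
    0 ≤ en2 L b x k m :=
  mul_nonneg (by positivity) (Finset.sum_nonneg fun _ _ => dp_nonneg _)

theorem mulVec_qK (L : Matrix κ κ ℝ) (A : ℤ → ℤ → ℝ) (b : ℤ → ℤ → κ → ℝ) (z x : ℤ) (k : ℕ)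
    (m : ℤ) (i : κ) :
    (L *ᵥ qK A b z x k m) i = qK (fun _ y => (L *ᵥ b x y) i) (un A) 0 z k m () := by
  rw [qK_apply, qK, mulVec_smul, Pi.smul_apply, smul_eq_mul]
  congr 1
  rw [mulVec_sum, Finset.sum_apply]
  refine Finset.sum_congr rfl fun y _ => ?_
  rw [mulVec_smul, Pi.smul_apply, smul_eq_mul, un, mul_comm]

/-- the cap of `A` pays `L q` -/
theorem Lq_le {t2 : ℝ} (L : Matrix κ κ ℝ) (A : ℤ → ℤ → ℝ) (b : ℤ → ℤ → κ → ℝ) {a k : ℕ}
    {n m : ℤ} (hc : Cap t2 (un A) a k n m) (x : ℤ) :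
    ∑ z ∈ iv a n, (L *ᵥ qK A b z x k m) ⬝ᵥ (L *ᵥ qK A b z x k m)
      ≤ (2 : ℝ) ^ a * t2 * en2 L b x k m := by
  have h1 : ∀ z, (L *ᵥ qK A b z x k m) ⬝ᵥ (L *ᵥ qK A b z x k m)
      = ∑ i, qK (fun _ y => (L *ᵥ b x y) i) (un A) 0 z k m ⬝ᵥ
          qK (fun _ y => (L *ᵥ b x y) i) (un A) 0 z k m := by
    intro z
    simp only [dotProduct, mulVec_qK, Finset.univ_unique, Finset.sum_singleton,
      PUnit.default_eq_unit]
  simp only [h1]
  rw [Finset.sum_comm]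
  refine (Finset.sum_le_sum fun i _ => hc fun y => (L *ᵥ b x y) i).trans (le_of_eq ?_)
  rw [← Finset.mul_sum, ← Finset.mul_sum, en2, Finset.sum_comm]
  congr 2
  refine Finset.sum_congr rfl fun y _ => ?_
  simp only [dotProduct, pow_two]

/-! ### The moving family -/

/-- moving label matrices: `R ± D` on the two halves of the middle cell -/
structure Mv (N : ℕ) (R D : ℤ → ℕ → ℤ → Matrix κ κ ℝ) : Prop where
  symR : ∀ x k m, (R x k m)ᵀ = R x k m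
  symD : ∀ x k m, (D x k m)ᵀ = D x k m
  left : ∀ x k m, k < N → R x k (2 * m) = R x (k + 1) m + D x (k + 1) m
  right : ∀ x k m, k < N → R x k (2 * m + 1) = R x (k + 1) m - D x (k + 1) m

variable [DecidableEq κ]

/-- the family of the slot `R b` with the weight `β + R²` -/
def QB (β : ℝ) (b : ℤ → ℤ → κ → ℝ) (R : ℤ → ℕ → ℤ → Matrix κ κ ℝ) (k : ℕ) :
    ℕ → ℤ → ℤ → Matrix (Ix k) (Ix k) ℝ :=
  fun a n m => QW a k b (fun x => wt β (R x k m)) n m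

theorem QB_out (N k : ℕ) (β : ℝ) (b : ℤ → ℤ → κ → ℝ) (R : ℤ → ℕ → ℤ → Matrix κ κ ℝ) :
    OutM N k (QB β b R k) := QW_out N k b fun m x => wt β (R x k m)

theorem QB_symm {N : ℕ} {R D : ℤ → ℕ → ℤ → Matrix κ κ ℝ} (h : Mv N R D) (β : ℝ)
    (b : ℤ → ℤ → κ → ℝ) (k a : ℕ) (n m : ℤ) : (QB β b R k a n m)ᵀ = QB β b R k a n m :=
  QW_symm (fun x => wt_symm (h.symR x k m)) n m

theorem QB_psd {N : ℕ} {R D : ℤ → ℕ → ℤ → Matrix κ κ ℝ} (h : Mv N R D) {β : ℝ} (hβ : 0 ≤ β)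
    (b : ℤ → ℤ → κ → ℝ) (k a : ℕ) (n m : ℤ) : (QB β b R k a n m).PosSemidef :=
  QW_psd (fun x => wt_psd hβ (h.symR x k m)) n m

/-- defect of the own middle inequality -/
def dB (β Q : ℝ) (b : ℤ → ℤ → κ → ℝ) (R D : ℤ → ℕ → ℤ → Matrix κ κ ℝ) (k a : ℕ) (n m : ℤ) : ℝ :=
  ((2 : ℝ) ^ a * 2 ^ a)⁻¹ * ∑ x ∈ iv a n, ∑ x' ∈ iv a n,
    ((4 + 6 * Q / β) * ip (D x k m * R x k m * XR k b b x x' m) (D x k m * R x k m * XR k b b x x' m)
      + 4 * β * ip (D x k m * XR k b b x x' m) (D x k m * XR k b b x x' m))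

/-- **own middle inequality**, pointwise -/
theorem QB_own_pt {β Q : ℝ} (hβ : 0 < β) {N : ℕ} {R D : ℤ → ℕ → ℤ → Matrix κ κ ℝ}
    (h : Mv N R D) (cR : ∀ x k m v, (R x k m *ᵥ v) ⬝ᵥ (R x k m *ᵥ v) ≤ Q * (v ⬝ᵥ v))
    {k : ℕ} (hk : k < N) (b : ℤ → ℤ → κ → ℝ) (a : ℕ) (n m : ℤ) :
    (QB β b R (k + 1) a n m * QB β b R (k + 1) a n m).trace
      ≤ (1 / 2) * ((QB β b R k a n (2 * m) * QB β b R k a n (2 * m)).trace
        + (QB β b R k a n (2 * m + 1) * QB β b R k a n (2 * m + 1)).trace)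
        + dB β Q b R D (k + 1) a n m := by
  have key : ∀ x x', ((XR (k + 1) b b x x' m)ᵀ * (wt β (R x (k + 1) m) * XR (k + 1) b b x x' m
        * wt β (R x' (k + 1) m))).trace
      ≤ (1 / 2) * (((XR k b b x x' (2 * m))ᵀ * (wt β (R x k (2 * m)) * XR k b b x x' (2 * m)
          * wt β (R x' k (2 * m)))).trace
        + ((XR k b b x x' (2 * m + 1))ᵀ * (wt β (R x k (2 * m + 1)) * XR k b b x x' (2 * m + 1)
          * wt β (R x' k (2 * m + 1)))).trace)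
        + (2 + 3 * Q / β) * (ip (D x (k + 1) m * R x (k + 1) m * XR (k + 1) b b x x' m)
            (D x (k + 1) m * R x (k + 1) m * XR (k + 1) b b x x' m)
          + ip (D x' (k + 1) m * R x' (k + 1) m * XR (k + 1) b b x' x m)
            (D x' (k + 1) m * R x' (k + 1) m * XR (k + 1) b b x' x m))
        + 2 * β * (ip (D x (k + 1) m * XR (k + 1) b b x x' m)
            (D x (k + 1) m * XR (k + 1) b b x x' m)
          + ip (D x' (k + 1) m * XR (k + 1) b b x' x m)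
            (D x' (k + 1) m * XR (k + 1) b b x' x m)) := by
    intro x x'
    have e := XR_half k b b x x' m
    have q := node_own hβ (h.symR x (k + 1) m) (h.symD x (k + 1) m) (h.symR x' (k + 1) m)
      (h.symD x' (k + 1) m) (cR x (k + 1) m) (cR x' (k + 1) m) (XR (k + 1) b b x x' m)
      ((1 / 2 : ℝ) • (XR k b b x x' (2 * m) - XR k b b x x' (2 * m + 1)))
    rw [e.1, e.2, ← h.left x k m hk, ← h.right x k m hk, ← h.left x' k m hk,
      ← h.right x' k m hk] at q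
    have t1 : ip (XR (k + 1) b b x x' m * R x' (k + 1) m * D x' (k + 1) m)
        (XR (k + 1) b b x x' m * R x' (k + 1) m * D x' (k + 1) m)
        = ip (D x' (k + 1) m * R x' (k + 1) m * XR (k + 1) b b x' x m)
          (D x' (k + 1) m * R x' (k + 1) m * XR (k + 1) b b x' x m) := by
      rw [← ip_transpose, transpose_mul, transpose_mul, XR_transpose, h.symD, h.symR,
        ← Matrix.mul_assoc]
    have t2 : ip (XR (k + 1) b b x x' m * D x' (k + 1) m)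
        (XR (k + 1) b b x x' m * D x' (k + 1) m)
        = ip (D x' (k + 1) m * XR (k + 1) b b x' x m)
          (D x' (k + 1) m * XR (k + 1) b b x' x m) := by
      rw [← ip_transpose, transpose_mul, XR_transpose, h.symD]
    rw [t1, t2, ← Matrix.mul_assoc (D x (k + 1) m) (R x (k + 1) m)] at q
    exact q
  unfold QB dB
  rw [tr_QW, tr_QW, tr_QW]
  set f : ℤ → ℤ → ℝ := fun x x' => ip (D x (k + 1) m * R x (k + 1) m * XR (k + 1) b b x x' m)
    (D x (k + 1) m * R x (k + 1) m * XR (k + 1) b b x x' m) with hf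
  set g : ℤ → ℤ → ℝ := fun x x' => ip (D x (k + 1) m * XR (k + 1) b b x x' m)
    (D x (k + 1) m * XR (k + 1) b b x x' m) with hg
  have s1 : ∑ x ∈ iv a n, ∑ x' ∈ iv a n, f x' x = ∑ x ∈ iv a n, ∑ x' ∈ iv a n, f x x' :=
    Finset.sum_comm
  have s2 : ∑ x ∈ iv a n, ∑ x' ∈ iv a n, g x' x = ∑ x ∈ iv a n, ∑ x' ∈ iv a n, g x x' :=
    Finset.sum_comm
  have hs := Finset.sum_le_sum fun x (_ : x ∈ iv a n) => Finset.sum_le_sum
    fun x' (_ : x' ∈ iv a n) => key x x'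
  simp only [Finset.sum_add_distrib, ← Finset.mul_sum] at hs
  have hs2 := mul_le_mul_of_nonneg_left hs (show (0 : ℝ) ≤ ((2 : ℝ) ^ a * 2 ^ a)⁻¹ by positivity)
  refine hs2.trans (le_of_eq ?_)
  have s1' : ∑ x ∈ iv a n, ∑ x' ∈ iv a n,
      ip (D x' (k + 1) m * R x' (k + 1) m * XR (k + 1) b b x' x m)
        (D x' (k + 1) m * R x' (k + 1) m * XR (k + 1) b b x' x m)
      = ∑ x ∈ iv a n, ∑ x' ∈ iv a n, f x x' := s1
  have s2' : ∑ x ∈ iv a n, ∑ x' ∈ iv a n,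
      ip (D x' (k + 1) m * XR (k + 1) b b x' x m) (D x' (k + 1) m * XR (k + 1) b b x' x m)
      = ∑ x ∈ iv a n, ∑ x' ∈ iv a n, g x x' := s2
  rw [s1', s2']
  have s3 : ∑ x ∈ iv a n, ∑ x' ∈ iv a n, ((4 + 6 * Q / β) * f x x' + 4 * β * g x x')
      = (4 + 6 * Q / β) * ∑ x ∈ iv a n, ∑ x' ∈ iv a n, f x x'
        + 4 * β * ∑ x ∈ iv a n, ∑ x' ∈ iv a n, g x x' := by
    simp only [Finset.sum_add_distrib, ← Finset.mul_sum]
  rw [s3]
  ring


omit [DecidableEq κ] in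
/-- energies per row and cell: the bound of the defect -/
theorem dB_le {β Q s2 : ℝ} (hβ : 0 < β) (hQ : 0 ≤ Q) {R D : ℤ → ℕ → ℤ → Matrix κ κ ℝ}
    (b : ℤ → ℤ → κ → ℝ) {k a : ℕ} {n m : ℤ} (hc : Cap s2 b a k n m) :
    dB β Q b R D k a n m ≤ ((2 : ℝ) ^ a)⁻¹ * s2 * ∑ x ∈ iv a n,
      ((4 + 6 * Q / β) * en2 (D x k m * R x k m) b x k m + 4 * β * en2 (D x k m) b x k m) := by
  unfold dB
  have h1 : ∀ x ∈ iv a n, ∑ x' ∈ iv a n,
      ((4 + 6 * Q / β) * ip (D x k m * R x k m * XR k b b x x' m)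
          (D x k m * R x k m * XR k b b x x' m)
        + 4 * β * ip (D x k m * XR k b b x x' m) (D x k m * XR k b b x x' m))
      ≤ (2 : ℝ) ^ a * s2 * ((4 + 6 * Q / β) * en2 (D x k m * R x k m) b x k m
        + 4 * β * en2 (D x k m) b x k m) := by
    intro x _
    rw [Finset.sum_add_distrib, ← Finset.mul_sum, ← Finset.mul_sum]
    have e1 := ip_LXR_le (D x k m * R x k m) b b hc x
    have e2 := ip_LXR_le (D x k m) b b hc x
    have c1 : 0 ≤ 4 + 6 * Q / β := by positivity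
    have e3 := mul_le_mul_of_nonneg_left e1 c1
    have e4 := mul_le_mul_of_nonneg_left e2 (show 0 ≤ 4 * β by positivity)
    linarith
  refine (mul_le_mul_of_nonneg_left (Finset.sum_le_sum h1) (by positivity)).trans (le_of_eq ?_)
  rw [← Finset.mul_sum, mul_inv]
  have : (2 : ℝ) ^ a ≠ 0 := by positivity
  field_simp

omit [DecidableEq κ] in
/-- sums of cell energies are sums over points -/
theorem sum_en2 {N a k : ℕ} (ha : a ≤ N) (hk : k ≤ N) (R₁ S : ℤ)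
    (L : ℤ → ℤ → Matrix κ κ ℝ) (b : ℤ → ℤ → κ → ℝ) :
    (2 : ℝ) ^ k * ∑ m ∈ iv (N - k) S, ∑ n ∈ iv (N - a) R₁, ∑ x ∈ iv a n, en2 (L x m) b x k m
      = ∑ x ∈ iv N R₁, ∑ y ∈ iv N S, (L x (ix k y) *ᵥ b x y) ⬝ᵥ (L x (ix k y) *ᵥ b x y) := by
  have h1 : ∀ m, ∑ n ∈ iv (N - a) R₁, ∑ x ∈ iv a n, en2 (L x m) b x k m
      = ∑ x ∈ iv N R₁, en2 (L x m) b x k m := fun m =>
    sum_sub ha R₁ fun _ x => en2 (L x m) b x k m
  rw [Finset.sum_congr rfl fun m _ => h1 m, Finset.mul_sum]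
  have h2 : ∀ m, (2 : ℝ) ^ k * ∑ x ∈ iv N R₁, en2 (L x m) b x k m
      = ∑ y ∈ iv k m, ∑ x ∈ iv N R₁, (L x m *ᵥ b x y) ⬝ᵥ (L x m *ᵥ b x y) := by
    intro m
    unfold en2
    rw [← Finset.mul_sum, ← mul_assoc, mul_inv_cancel₀ (by positivity), one_mul, Finset.sum_comm]
  rw [Finset.sum_congr rfl fun m _ => h2 m]
  rw [sum_sub hk S fun m y => ∑ x ∈ iv N R₁, (L x m *ᵥ b x y) ⬝ᵥ (L x m *ᵥ b x y), Finset.sum_comm]

/-- the energies `SUM |D R b|²` (`e0`) and `SUM |D b|²` (`e1`) of one scale -/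
def e0 (N : ℕ) (R₁ S : ℤ) (b : ℤ → ℤ → κ → ℝ) (R D : ℤ → ℕ → ℤ → Matrix κ κ ℝ) (k : ℕ) : ℝ :=
  ∑ x ∈ iv N R₁, ∑ y ∈ iv N S, (D x k (ix k y) *ᵥ (R x k (ix k y) *ᵥ b x y)) ⬝ᵥ
    (D x k (ix k y) *ᵥ (R x k (ix k y) *ᵥ b x y))

@[inherit_doc e0] def e1 (N : ℕ) (R₁ S : ℤ) (b : ℤ → ℤ → κ → ℝ)
    (D : ℤ → ℕ → ℤ → Matrix κ κ ℝ) (k : ℕ) : ℝ :=
  ∑ x ∈ iv N R₁, ∑ y ∈ iv N S, (D x k (ix k y) *ᵥ b x y) ⬝ᵥ (D x k (ix k y) *ᵥ b x y)

/-- **own middle inequality**, energies; the defect does not depend on the outer scale `a` -/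
theorem QB_own {β Q s2 : ℝ} (hβ : 0 < β) (hQ : 0 ≤ Q) {N : ℕ}
    {R D : ℤ → ℕ → ℤ → Matrix κ κ ℝ} (h : Mv N R D)
    (cR : ∀ x k m v, (R x k m *ᵥ v) ⬝ᵥ (R x k m *ᵥ v) ≤ Q * (v ⬝ᵥ v))
    {k : ℕ} (hk : k < N) (R₁ S : ℤ) {b : ℤ → ℤ → κ → ℝ} {a : ℕ} (ha : a ≤ N)
    (hc : ∀ n ∈ iv (N - a) R₁, ∀ m ∈ iv (N - (k + 1)) S, Cap s2 b a (k + 1) n m) :
    EW N R₁ S (k + 1) (QB β b R (k + 1)) a ≤ EW N R₁ S k (QB β b R k) a
      + s2 * ((4 + 6 * Q / β) * e0 N R₁ S b R D (k + 1) + 4 * β * e1 N R₁ S b D (k + 1)) := by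
  have q := EW_mid hk (R := R₁) (S := S) (P := QB β b R k) (P' := QB β b R (k + 1)) (a := a)
    (d := fun n m => dB β Q b R D (k + 1) a n m) (fun n m => QB_own_pt hβ h cR hk b a n m)
  refine q.trans (add_le_add_right ?_ _)
  have q2 : ∑ m ∈ iv (N - (k + 1)) S, ∑ n ∈ iv (N - a) R₁, dB β Q b R D (k + 1) a n m
      ≤ ∑ m ∈ iv (N - (k + 1)) S, ∑ n ∈ iv (N - a) R₁, ((2 : ℝ) ^ a)⁻¹ * s2 * ∑ x ∈ iv a n,
      ((4 + 6 * Q / β) * en2 (D x (k + 1) m * R x (k + 1) m) b x (k + 1) m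
        + 4 * β * en2 (D x (k + 1) m) b x (k + 1) m) :=
    Finset.sum_le_sum fun m hm => Finset.sum_le_sum fun n hn => dB_le hβ hQ b (hc n hn m hm)
  refine (mul_le_mul_of_nonneg_left q2 (by positivity)).trans (le_of_eq ?_)
  have z0 := sum_en2 ha (show k + 1 ≤ N from hk) R₁ S
    (fun x m => D x (k + 1) m * R x (k + 1) m) b
  have z1 := sum_en2 ha (show k + 1 ≤ N from hk) R₁ S (fun x m => D x (k + 1) m) b
  simp only [← mulVec_mulVec] at z0
  unfold e0 e1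
  rw [← z0, ← z1]
  simp only [Finset.sum_add_distrib, ← Finset.mul_sum, mul_add]
  have h2 : (2 : ℝ) ^ a ≠ 0 := by positivity
  field_simp

/-- gain of the pair `A`, `R b` -/
def gB (β : ℝ) (A : ℤ → ℤ → ℝ) (b : ℤ → ℤ → κ → ℝ) (R : ℤ → ℕ → ℤ → Matrix κ κ ℝ) (k : ℕ)
    (n n' m : ℤ) : ℝ :=
  ((2 : ℝ) ^ k * 2 ^ k)⁻¹ * ∑ z ∈ iv k n, ∑ x ∈ iv k n',
    ((β / 2) * (H483.hd (qK A b z x) k m ⬝ᵥ H483.hd (qK A b z x) k m)
      + (1 / 2) * ((R x k m *ᵥ H483.hd (qK A b z x) k m) ⬝ᵥ (R x k m *ᵥ H483.hd (qK A b z x) k m)))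

/-- defect of the pair `A`, `R b` -/
def xB (β : ℝ) (A : ℤ → ℤ → ℝ) (b : ℤ → ℤ → κ → ℝ) (R D : ℤ → ℕ → ℤ → Matrix κ κ ℝ) (k : ℕ)
    (n n' m : ℤ) : ℝ :=
  ((2 : ℝ) ^ k * 2 ^ k)⁻¹ * ∑ z ∈ iv k n, ∑ x ∈ iv k n',
    ((2 / β) * ((D x k m *ᵥ (R x k m *ᵥ qK A b z x k m)) ⬝ᵥ
        (D x k m *ᵥ (R x k m *ᵥ qK A b z x k m)))
      + (D x k m *ᵥ qK A b z x k m) ⬝ᵥ (D x k m *ᵥ qK A b z x k m))

/-- **middle inequality with gain and defect**, pointwise -/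
theorem QB_mid {β : ℝ} (hβ : 0 < β) {N : ℕ} {R D : ℤ → ℕ → ℤ → Matrix κ κ ℝ} (h : Mv N R D)
    {k : ℕ} (hk : k < N) (A : ℤ → ℤ → ℝ) (b : ℤ → ℤ → κ → ℝ) (n n' m : ℤ) :
    (PA A (k + 1) (k + 1) n m * QB β b R (k + 1) (k + 1) n' m).trace
        + (gB β A b R (k + 1) n n' m - xB β A b R D (k + 1) n n' m)
      ≤ (1 / 2) * ((PA A k (k + 1) n (2 * m) * QB β b R k (k + 1) n' (2 * m)).trace
        + (PA A k (k + 1) n (2 * m + 1) * QB β b R k (k + 1) n' (2 * m + 1)).trace) := by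
  unfold PA QB gB xB
  rw [tr_Xg_QW, tr_Xg_QW, tr_Xg_QW]
  have key : ∀ z x, qK A b z x (k + 1) m ⬝ᵥ wt β (R x (k + 1) m) *ᵥ qK A b z x (k + 1) m
      + ((β / 2) * (H483.hd (qK A b z x) (k + 1) m ⬝ᵥ H483.hd (qK A b z x) (k + 1) m)
        + (1 / 2) * ((R x (k + 1) m *ᵥ H483.hd (qK A b z x) (k + 1) m) ⬝ᵥ
          (R x (k + 1) m *ᵥ H483.hd (qK A b z x) (k + 1) m)))
      ≤ (1 / 2) * (qK A b z x k (2 * m) ⬝ᵥ wt β (R x k (2 * m)) *ᵥ qK A b z x k (2 * m)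
        + qK A b z x k (2 * m + 1) ⬝ᵥ wt β (R x k (2 * m + 1)) *ᵥ qK A b z x k (2 * m + 1))
      + ((2 / β) * ((D x (k + 1) m *ᵥ (R x (k + 1) m *ᵥ qK A b z x (k + 1) m)) ⬝ᵥ
        (D x (k + 1) m *ᵥ (R x (k + 1) m *ᵥ qK A b z x (k + 1) m)))
      + (D x (k + 1) m *ᵥ qK A b z x (k + 1) m) ⬝ᵥ (D x (k + 1) m *ᵥ qK A b z x (k + 1) m)) := by
    intro z x
    have q := node_mid hβ (h.symR x (k + 1) m) (h.symD x (k + 1) m) (qK A b z x (k + 1) m)
      (H483.hd (qK A b z x) (k + 1) m)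
    have e := H483.half_vec (qK A b z x k (2 * m)) (qK A b z x k (2 * m + 1))
    rw [← qK_step] at e
    have e1 : qK A b z x (k + 1) m + H483.hd (qK A b z x) (k + 1) m = qK A b z x k (2 * m) := e.1
    have e2 : qK A b z x (k + 1) m - H483.hd (qK A b z x) (k + 1) m = qK A b z x k (2 * m + 1) :=
      e.2
    rw [e1, e2, ← h.left x k m hk, ← h.right x k m hk] at q
    exact q
  have hs := Finset.sum_le_sum fun z (_ : z ∈ iv (k + 1) n) => Finset.sum_le_sum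
    fun x (_ : x ∈ iv (k + 1) n') => key z x
  have hs2 := mul_le_mul_of_nonneg_left hs
    (show (0 : ℝ) ≤ ((2 : ℝ) ^ (k + 1) * 2 ^ (k + 1))⁻¹ by positivity)
  simp only [Finset.sum_add_distrib, ← Finset.mul_sum, mul_add] at hs2 ⊢
  linarith

omit [DecidableEq κ] in
/-- bound of the defect on the plane -/
theorem GW_xB_le {β t2 : ℝ} (hβ : 0 < β) (ht : 0 ≤ t2) {N : ℕ} {R₁ S T : ℤ} {k : ℕ} (hk : k ≤ N)
    (c : ℤ) {A : ℤ → ℤ → ℝ} (b : ℤ → ℤ → κ → ℝ) (R D : ℤ → ℕ → ℤ → Matrix κ κ ℝ)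
    (hA : ∀ n ∈ iv (N - k) R₁, ∀ m ∈ iv (N - k) S, Cap t2 (un A) k k n m) :
    GW N R₁ S T k c (xB β A b R D k)
      ≤ t2 * ((2 / β) * e0 N T S b R D k + e1 N T S b D k) := by
  set w : ℤ → ℤ → ℝ := fun n' m => ∑ x ∈ iv k n',
    ((2 / β) * en2 (D x k m * R x k m) b x k m + en2 (D x k m) b x k m) with hw
  have w0 : ∀ n' m, 0 ≤ w n' m := fun n' m => Finset.sum_nonneg fun x _ =>
    add_nonneg (mul_nonneg (by positivity) (en2_nonneg ..)) (en2_nonneg ..)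
  have h1 : ∀ n ∈ iv (N - k) R₁, ∀ m ∈ iv (N - k) S, ∀ n',
      xB β A b R D k n n' m ≤ ((2 : ℝ) ^ k)⁻¹ * t2 * w n' m := by
    intro n hn m hm n'
    unfold xB
    rw [Finset.sum_comm]
    have h2 : ∀ x ∈ iv k n', ∑ z ∈ iv k n,
        ((2 / β) * ((D x k m *ᵥ (R x k m *ᵥ qK A b z x k m)) ⬝ᵥ
          (D x k m *ᵥ (R x k m *ᵥ qK A b z x k m)))
        + (D x k m *ᵥ qK A b z x k m) ⬝ᵥ (D x k m *ᵥ qK A b z x k m))
        ≤ (2 : ℝ) ^ k * t2 * ((2 / β) * en2 (D x k m * R x k m) b x k m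
          + en2 (D x k m) b x k m) := by
      intro x _
      rw [Finset.sum_add_distrib, ← Finset.mul_sum]
      have e1 := Lq_le (D x k m * R x k m) A b (hA n hn m hm) x
      have e2 := Lq_le (D x k m) A b (hA n hn m hm) x
      simp only [← mulVec_mulVec] at e1
      have e3 := mul_le_mul_of_nonneg_left e1 (show 0 ≤ 2 / β by positivity)
      linarith
    refine (mul_le_mul_of_nonneg_left (Finset.sum_le_sum h2) (by positivity)).trans (le_of_eq ?_)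
    rw [← Finset.mul_sum, mul_inv, hw]
    have : (2 : ℝ) ^ k ≠ 0 := by positivity
    field_simp
  unfold GW
  have h3 : ∑ m ∈ iv (N - k) S, ∑ n ∈ iv (N - k) R₁,
      (if c - m - n ∈ iv (N - k) T then xB β A b R D k n (c - m - n) m else 0)
      ≤ ∑ m ∈ iv (N - k) S, ∑ n' ∈ iv (N - k) T, ((2 : ℝ) ^ k)⁻¹ * t2 * w n' m := by
    refine Finset.sum_le_sum fun m hm => ?_
    have h4 := H588.sum_refl_le (N - k) R₁ T (c - m) (fun n' => ((2 : ℝ) ^ k)⁻¹ * t2 * w n' m)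
      (fun n' => mul_nonneg (by positivity) (w0 n' m))
    refine le_trans (Finset.sum_le_sum fun n hn => ?_) h4
    split_ifs with hc
    · exact h1 n hn m hm _
    · exact le_rfl
  refine (mul_le_mul_of_nonneg_left h3 (by positivity)).trans (le_of_eq ?_)
  have z0 := sum_en2 hk hk T S (fun x m => D x k m * R x k m) b
  have z1 := sum_en2 hk hk T S (fun x m => D x k m) b
  simp only [← mulVec_mulVec] at z0
  unfold e0 e1
  rw [← z0, ← z1, hw]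
  simp only [Finset.sum_add_distrib, ← Finset.mul_sum, mul_add]
  have h4 : (4 : ℝ) ^ k = 2 ^ k * 2 ^ k := by rw [← mul_pow]; norm_num
  have : (2 : ℝ) ^ k ≠ 0 := by positivity
  rw [h4]
  field_simp


/-! ### Totals -/

/-- END value of the own energy -/
theorem EW_end {β Q s2 : ℝ} (hβ : 0 < β) {N : ℕ} {R D : ℤ → ℕ → ℤ → Matrix κ κ ℝ} (h : Mv N R D)
    (cR : ∀ x k m v, (R x k m *ᵥ v) ⬝ᵥ (R x k m *ᵥ v) ≤ Q * (v ⬝ᵥ v)) (R₁ S : ℤ)
    {b : ℤ → ℤ → κ → ℝ} (hb : ∀ x ∈ iv N R₁, ∀ y ∈ iv N S, b x y ⬝ᵥ b x y ≤ s2) :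
    EW N R₁ S 0 (QB β b R 0) 0 ≤ s2 * (β ^ 2 * ∑ x ∈ iv N R₁, ∑ y ∈ iv N S, b x y ⬝ᵥ b x y
      + (2 * β + Q) * ∑ x ∈ iv N R₁, ∑ y ∈ iv N S, (R x 0 y *ᵥ b x y) ⬝ᵥ (R x 0 y *ᵥ b x y)) := by
  have h0 : ∀ x y, (QB β b R 0 0 x y * QB β b R 0 0 x y).trace
      = (β * (b x y ⬝ᵥ b x y) + (R x 0 y *ᵥ b x y) ⬝ᵥ (R x 0 y *ᵥ b x y)) ^ 2 := by
    intro x y
    have hx : iv 0 x = {x} := by
      unfold iv
      ext z
      simp only [pow_zero, one_mul, mem_Ico, mem_singleton]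
      omega
    have hv : ∀ j : Ix 0, ((val 0 j : ℕ) : ℤ) = 0 := by
      intro j
      have := Vale.Agent.P075.val_lt 0 j
      simp only [pow_zero] at this
      omega
    have hq : ∀ j j' : Ix 0, QB β b R 0 0 x y j j' = b x y ⬝ᵥ wt β (R x 0 y) *ᵥ b x y := by
      intro j j'
      unfold QB QW
      rw [hx, Finset.sum_singleton, hv, hv]
      simp
    have hu : (Finset.univ : Finset (Ix 0)).card = 1 := by
      rfl
    simp only [trace, diag_apply, mul_apply, hq, Finset.sum_const, hu, one_smul]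
    rw [wt_quad (h.symR x 0 y)]
    ring
  unfold EW
  simp only [Nat.sub_zero, pow_zero, one_mul]
  rw [Finset.sum_comm]
  have h1 : ∀ x ∈ iv N R₁, ∀ y ∈ iv N S, (QB β b R 0 0 x y * QB β b R 0 0 x y).trace
      ≤ s2 * (β ^ 2 * (b x y ⬝ᵥ b x y)
        + (2 * β + Q) * ((R x 0 y *ᵥ b x y) ⬝ᵥ (R x 0 y *ᵥ b x y))) := by
    intro x hx y hy
    rw [h0]
    have a1 := hb x hx y hy
    have a2 := dp_nonneg (b x y)
    have a3 := dp_nonneg (R x 0 y *ᵥ b x y)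
    have a4 := cR x 0 y (b x y)
    have b1 := mul_le_mul_of_nonneg_left a1 (mul_nonneg (sq_nonneg β) a2)
    have b2 := mul_le_mul_of_nonneg_left a1 (mul_nonneg (mul_nonneg zero_le_two hβ.le) a3)
    have b3 := mul_le_mul_of_nonneg_left a4 a3
    have hQ : 0 ≤ Q ∨ b x y ⬝ᵥ b x y = 0 := by
      by_contra hcon
      push Not at hcon
      have : 0 < b x y ⬝ᵥ b x y := lt_of_le_of_ne a2 (Ne.symm hcon.2)
      have := mul_neg_of_neg_of_pos hcon.1 this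
      linarith
    have b4 : (R x 0 y *ᵥ b x y) ⬝ᵥ (R x 0 y *ᵥ b x y) * (Q * (b x y ⬝ᵥ b x y))
        ≤ (R x 0 y *ᵥ b x y) ⬝ᵥ (R x 0 y *ᵥ b x y) * (Q * s2) := by
      rcases hQ with hQ | hQ
      · exact mul_le_mul_of_nonneg_left (mul_le_mul_of_nonneg_left a1 hQ) a3
      · have h5 : (R x 0 y *ᵥ b x y) ⬝ᵥ (R x 0 y *ᵥ b x y) = 0 := by
          rw [hQ, mul_zero] at a4
          linarith
        rw [h5]
        simp
    nlinarith [b1, b2, b3, b4]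
  refine (Finset.sum_le_sum fun x hx => Finset.sum_le_sum fun y hy => h1 x hx y hy).trans
    (le_of_eq ?_)
  simp only [Finset.sum_add_distrib, ← Finset.mul_sum]

theorem EW_smul' (N : ℕ) (R S : ℤ) (k : ℕ) (μ : ℝ) {ι : Type*} [Fintype ι]
    (P : ℕ → ℤ → ℤ → Matrix ι ι ℝ) (a : ℕ) :
    EW N R S k (fun a n m => μ • P a n m) a = μ ^ 2 * EW N R S k P a := EW_smul N R S k μ P a

omit [Fintype κ] [DecidableEq κ] in
/-- optimising a product -/
theorem opt_mul {G X Y C : ℝ} (X0 : 0 ≤ X) (Y0 : 0 ≤ Y) (C0 : 0 < C)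
    (key : ∀ μ : ℝ, 0 < μ → G ≤ C * (μ ^ 2 * X + (μ⁻¹) ^ 2 * Y)) : G ≤ 2 * C * √(X * Y) := by
  rw [Real.sqrt_mul X0]
  have sX := Real.sq_sqrt X0
  have sY := Real.sq_sqrt Y0
  have nX := Real.sqrt_nonneg X
  have nY := Real.sqrt_nonneg Y
  refine le_of_forall_pos_le_add fun ε hε => ?_
  set δ : ℝ := min 1 (ε / (2 * C * (√X + √Y + 1))) with hδ
  have hden : 0 < 2 * C * (√X + √Y + 1) := by positivity
  have δ0 : 0 < δ := lt_min one_pos (by positivity)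
  have δ1 : δ ≤ 1 := min_le_left _ _
  have δ2 : 2 * C * (√X + √Y + 1) * δ ≤ ε := by
    have := min_le_right (1 : ℝ) (ε / (2 * C * (√X + √Y + 1)))
    rw [← hδ, le_div_iff₀ hden] at this
    linarith
  have a0 : 0 < √X + δ := by positivity
  have b0 : 0 < √Y + δ := by positivity
  have h := key (√((√Y + δ) / (√X + δ))) (Real.sqrt_pos.2 (div_pos b0 a0))
  rw [inv_pow, Real.sq_sqrt (div_pos b0 a0).le, inv_div] at h
  have c1 : (√Y + δ) / (√X + δ) * X ≤ (√Y + δ) * (√X + δ) := by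
    rw [div_mul_eq_mul_div, div_le_iff₀ a0, mul_assoc]
    refine mul_le_mul_of_nonneg_left ?_ b0.le
    nlinarith
  have c2 : (√X + δ) / (√Y + δ) * Y ≤ (√Y + δ) * (√X + δ) := by
    rw [div_mul_eq_mul_div, div_le_iff₀ b0]
    have : Y ≤ (√Y + δ) * (√Y + δ) := by nlinarith
    calc (√X + δ) * Y ≤ (√X + δ) * ((√Y + δ) * (√Y + δ)) :=
          mul_le_mul_of_nonneg_left this a0.le
      _ = _ := by ring
  have c3 : (√Y + δ) * (√X + δ) ≤ √X * √Y + (√X + √Y + 1) * δ := by nlinarith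
  have c4 := mul_le_mul_of_nonneg_left (add_le_add c1 c2) C0.le
  have c5 := mul_le_mul_of_nonneg_left c3 (show 0 ≤ 2 * C by positivity)
  nlinarith

theorem WW_const {N k : ℕ} {d : ℝ} (hd : 0 ≤ d) : WW N k (fun _ => d) ≤ 4 * d :=
  WW_le (e := fun _ => d) hd fun _ _ _ => le_rfl

/-- **pair `A`, `R b`, time dependent static slots** (`A k`, `b k` at scale `k`; changes `x`) -/
theorem pairB_chg {β Q s2 t2 : ℝ} (hβ : 0 < β) (hQ : 0 ≤ Q) (hs : 0 ≤ s2) (ht : 0 ≤ t2)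
    {k₀ N : ℕ} (hkN : k₀ ≤ N) {R₁ S T : ℤ} {c : ℕ → ℤ} (hc : H588.Pl c)
    {R D : ℤ → ℕ → ℤ → Matrix κ κ ℝ} (h : Mv N R D)
    (cR : ∀ x k m v, (R x k m *ᵥ v) ⬝ᵥ (R x k m *ᵥ v) ≤ Q * (v ⬝ᵥ v))
    (A : ℕ → ℤ → ℤ → ℝ) (b : ℕ → ℤ → ℤ → κ → ℝ) (x : ℕ → ℝ)
    (hA : ∀ k, k₀ ≤ k → k < N → ∀ n ∈ iv (N - (k + 1)) R₁, ∀ m ∈ iv (N - (k + 1)) S,
      Cap t2 (un (A (k + 1))) (k + 1) (k + 1) n m)
    (hb : ∀ k, k₀ ≤ k → k < N → ∀ a, k + 1 ≤ a → a ≤ N → ∀ n ∈ iv (N - a) T,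
      ∀ m ∈ iv (N - (k + 1)) S, Cap s2 (b (k + 1)) a (k + 1) n m)
    (hx : ∀ k, k₀ ≤ k → k < N →
      MW N R₁ S T k (c k) (PA (A (k + 1)) k k) (QB β (b (k + 1)) R k k)
      + 9 * (WW N k (EW N R₁ S k (PA (A (k + 1)) k)) + WW N k (EW N T S k (QB β (b (k + 1)) R k)))
      ≤ MW N R₁ S T k (c k) (PA (A k) k k) (QB β (b k) R k k)
      + 9 * (WW N k (EW N R₁ S k (PA (A k) k)) + WW N k (EW N T S k (QB β (b k) R k))) + x k) :
    ∑ k ∈ Ico k₀ N, GW N R₁ S T (k + 1) (c (k + 1)) (gB β (A (k + 1)) (b (k + 1)) R (k + 1))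
      ≤ 37 * (EW N R₁ S k₀ (PA (A k₀) k₀) k₀ + EW N T S k₀ (QB β (b k₀) R k₀) k₀)
        + ∑ k ∈ Ico k₀ N, x k
        + ∑ k ∈ Ico k₀ N, t2 * ((2 / β) * e0 N T S (b (k + 1)) R D (k + 1)
          + e1 N T S (b (k + 1)) D (k + 1))
        + 36 * ∑ k ∈ Ico k₀ N, s2 * ((4 + 6 * Q / β) * e0 N T S (b (k + 1)) R D (k + 1)
          + 4 * β * e1 N T S (b (k + 1)) D (k + 1)) := by
  set dd : ℕ → ℝ := fun k => s2 * ((4 + 6 * Q / β) * e0 N T S (b (k + 1)) R D (k + 1)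
          + 4 * β * e1 N T S (b (k + 1)) D (k + 1)) with hdd
  have q0 : ∀ (b' : ℤ → ℤ → κ → ℝ) k, 0 ≤ e0 N T S b' R D k := fun b' k =>
    Finset.sum_nonneg fun _ _ => Finset.sum_nonneg fun _ _ => dp_nonneg _
  have q1 : ∀ (b' : ℤ → ℤ → κ → ℝ) k, 0 ≤ e1 N T S b' D k := fun b' k =>
    Finset.sum_nonneg fun _ _ => Finset.sum_nonneg fun _ _ => dp_nonneg _
  have dd0 : ∀ k, 0 ≤ dd k := fun k => mul_nonneg hs (add_nonneg
    (mul_nonneg (by positivity) (q0 _ _)) (mul_nonneg (by positivity) (q1 _ _)))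
  have ht := totalW hkN hc (R := R₁) (S := S) (T := T)
    (P := fun k => PA (A k) k) (P' := fun k => PA (A (k + 1)) k)
    (Q := fun k => QB β (b k) R k) (Q' := fun k => QB β (b (k + 1)) R k)
    (g := fun k n n' m => gB β (A (k + 1)) (b (k + 1)) R (k + 1) n n' m
      - xB β (A (k + 1)) (b (k + 1)) R D (k + 1) n n' m)
    (dE := fun _ _ => 0) (dF := fun k _ => dd k) (x := x)
    (fun k _ _ => PA_out N k (A k)) (fun k _ _ => QB_out N k β (b k) R)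
    (fun k _ _ => PA_out N k (A (k + 1))) (fun k _ _ => QB_out N k β (b (k + 1)) R)
    (fun k a n m => PA_symm (A k) k a n m) (fun k a n m => QB_symm h β (b k) k a n m)
    (fun k a n m => PA_symm (A (k + 1)) k a n m) (fun k a n m => QB_symm h β (b (k + 1)) k a n m)
    (fun k _ hk n n' m => QB_mid hβ h hk (A (k + 1)) (b (k + 1)) n n' m)
    (fun k _ hk a _ _ => by simpa using PA_own hk R₁ S (A (k + 1)) a)
    (fun k h1 h2 a h3 h4 => QB_own hβ hQ h cR h2 T S h4 (hb k h1 h2 a h3 h4)) hx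
  have e1' : ∑ k ∈ Ico k₀ N, (WW N (k + 1) (fun _ => (0 : ℝ)) + WW N (k + 1) (fun _ => dd k))
      ≤ 4 * ∑ k ∈ Ico k₀ N, dd k := by
    rw [Finset.mul_sum]
    refine Finset.sum_le_sum fun k _ => ?_
    have z1 := WW_const (N := N) (k := k + 1) (d := 0) le_rfl
    have z2 := WW_const (N := N) (k := k + 1) (dd0 k)
    linarith
  have e2' : ∑ k ∈ Ico k₀ N, GW N R₁ S T (k + 1) (c (k + 1))
        (fun n n' m => gB β (A (k + 1)) (b (k + 1)) R (k + 1) n n' m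
          - xB β (A (k + 1)) (b (k + 1)) R D (k + 1) n n' m)
      = ∑ k ∈ Ico k₀ N, GW N R₁ S T (k + 1) (c (k + 1)) (gB β (A (k + 1)) (b (k + 1)) R (k + 1))
        - ∑ k ∈ Ico k₀ N, GW N R₁ S T (k + 1) (c (k + 1))
          (xB β (A (k + 1)) (b (k + 1)) R D (k + 1)) := by
    rw [← Finset.sum_sub_distrib]
    refine Finset.sum_congr rfl fun k _ => ?_
    unfold GW
    rw [← mul_sub, ← Finset.sum_sub_distrib]
    congr 1
    refine Finset.sum_congr rfl fun m _ => ?_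
    rw [← Finset.sum_sub_distrib]
    refine Finset.sum_congr rfl fun n _ => ?_
    split_ifs <;> ring
  have e3' : ∑ k ∈ Ico k₀ N, GW N R₁ S T (k + 1) (c (k + 1))
          (xB β (A (k + 1)) (b (k + 1)) R D (k + 1))
      ≤ ∑ k ∈ Ico k₀ N, t2 * ((2 / β) * e0 N T S (b (k + 1)) R D (k + 1)
          + e1 N T S (b (k + 1)) D (k + 1)) :=
    Finset.sum_le_sum fun k hk => GW_xB_le hβ ‹0 ≤ t2› (by have := mem_Ico.1 hk; omega) _ _ R D
      (hA k (mem_Ico.1 hk).1 (mem_Ico.1 hk).2)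
  rw [e2'] at ht
  linarith


/-- **pair `A`, `R b`, static `A` and `b`, product form** -/
theorem pairB_sqrt {β Q s2 t2 : ℝ} (hβ : 0 < β) (hQ : 0 ≤ Q) (hs : 0 ≤ s2) (ht : 0 ≤ t2)
    {k₀ N : ℕ} (hkN : k₀ ≤ N) {R₁ S T : ℤ} {c : ℕ → ℤ} (hc : H588.Pl c)
    {R D : ℤ → ℕ → ℤ → Matrix κ κ ℝ} (h : Mv N R D)
    (cR : ∀ x k m v, (R x k m *ᵥ v) ⬝ᵥ (R x k m *ᵥ v) ≤ Q * (v ⬝ᵥ v))
    (A : ℤ → ℤ → ℝ) (b : ℤ → ℤ → κ → ℝ)
    (hA : ∀ k, k₀ ≤ k → k < N → ∀ n ∈ iv (N - (k + 1)) R₁, ∀ m ∈ iv (N - (k + 1)) S,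
      Cap t2 (un A) (k + 1) (k + 1) n m)
    (hb : ∀ k, k₀ ≤ k → k < N → ∀ a, k + 1 ≤ a → a ≤ N → ∀ n ∈ iv (N - a) T,
      ∀ m ∈ iv (N - (k + 1)) S, Cap s2 b a (k + 1) n m) :
    ∑ k ∈ Ico k₀ N, GW N R₁ S T (k + 1) (c (k + 1)) (gB β A b R (k + 1))
      ≤ 74 * √(EW N R₁ S k₀ (PA A k₀) k₀ * (EW N T S k₀ (QB β b R k₀) k₀
          + ∑ k ∈ Ico k₀ N, s2 * ((4 + 6 * Q / β) * e0 N T S b R D (k + 1)
          + 4 * β * e1 N T S b D (k + 1))))
        + ∑ k ∈ Ico k₀ N, t2 * ((2 / β) * e0 N T S b R D (k + 1) + e1 N T S b D (k + 1)) := by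
  set dd : ℕ → ℝ := fun k => s2 * ((4 + 6 * Q / β) * e0 N T S b R D (k + 1)
          + 4 * β * e1 N T S b D (k + 1)) with hdd
  set G := ∑ k ∈ Ico k₀ N, GW N R₁ S T (k + 1) (c (k + 1)) (gB β A b R (k + 1)) with hG
  set X := EW N R₁ S k₀ (PA A k₀) k₀ with hX
  set Y := EW N T S k₀ (QB β b R k₀) k₀ with hY
  set Z := ∑ k ∈ Ico k₀ N, t2 * ((2 / β) * e0 N T S b R D (k + 1) + e1 N T S b D (k + 1)) with hZ
  have q0 : ∀ k, 0 ≤ e0 N T S b R D k := fun k =>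
    Finset.sum_nonneg fun _ _ => Finset.sum_nonneg fun _ _ => dp_nonneg _
  have q1 : ∀ k, 0 ≤ e1 N T S b D k := fun k =>
    Finset.sum_nonneg fun _ _ => Finset.sum_nonneg fun _ _ => dp_nonneg _
  have dd0 : ∀ k, 0 ≤ dd k := fun k => mul_nonneg hs (add_nonneg
    (mul_nonneg (by positivity) (q0 _)) (mul_nonneg (by positivity) (q1 _)))
  have X0 : 0 ≤ X := EW_nonneg (fun a n m => PA_symm A k₀ a n m) k₀
  have Y0 : 0 ≤ Y := EW_nonneg (fun a n m => QB_symm h β b k₀ a n m) k₀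
  have key : ∀ μ : ℝ, 0 < μ → G - Z ≤ 37 * (μ ^ 2 * X + (μ⁻¹) ^ 2 * (Y + ∑ k ∈ Ico k₀ N, dd k)) := by
    intro μ hμ
    have ht' := totalW hkN hc (R := R₁) (S := S) (T := T)
      (P := fun k a n m => μ • PA A k a n m) (P' := fun k a n m => μ • PA A k a n m)
      (Q := fun k a n m => μ⁻¹ • QB β b R k a n m) (Q' := fun k a n m => μ⁻¹ • QB β b R k a n m)
      (g := fun k n n' m => gB β A b R (k + 1) n n' m - xB β A b R D (k + 1) n n' m)
      (dE := fun _ _ => 0) (dF := fun k _ => (μ⁻¹) ^ 2 * dd k) (x := fun _ => 0)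
      (fun k _ _ => (PA_out N k A).smul μ) (fun k _ _ => (QB_out N k β b R).smul μ⁻¹)
      (fun k _ _ => (PA_out N k A).smul μ) (fun k _ _ => (QB_out N k β b R).smul μ⁻¹)
      (fun k a n m => by rw [transpose_smul, PA_symm])
      (fun k a n m => by rw [transpose_smul, QB_symm h])
      (fun k a n m => by rw [transpose_smul, PA_symm])
      (fun k a n m => by rw [transpose_smul, QB_symm h])
      (fun k _ hk n n' m => by
        have := QB_mid hβ h hk A b n n' m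
        simp only [Matrix.smul_mul, Matrix.mul_smul, smul_smul, inv_mul_cancel₀ hμ.ne',
          one_smul]
        exact this)
      (fun k _ hk a _ _ => by
        simp only [EW_smul, add_zero]
        exact mul_le_mul_of_nonneg_left (PA_own hk R₁ S A a) (sq_nonneg _))
      (fun k h1 h2 a h3 h4 => by
        simp only [EW_smul, ← mul_add]
        exact mul_le_mul_of_nonneg_left (QB_own hβ hQ h cR h2 T S h4 (hb k h1 h2 a h3 h4))
          (sq_nonneg _))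
      (fun k h1 h2 => by simp)
    simp only [EW_smul, sum_const_zero, add_zero] at ht'
    have e1' : ∑ k ∈ Ico k₀ N, (WW N (k + 1) (fun _ => (0 : ℝ))
        + WW N (k + 1) (fun _ => (μ⁻¹) ^ 2 * dd k)) ≤ 4 * ((μ⁻¹) ^ 2 * ∑ k ∈ Ico k₀ N, dd k) := by
      rw [Finset.mul_sum, Finset.mul_sum]
      refine Finset.sum_le_sum fun k _ => ?_
      have z1 := WW_const (N := N) (k := k + 1) (d := 0) le_rfl
      have z2 := WW_const (N := N) (k := k + 1) (mul_nonneg (sq_nonneg μ⁻¹) (dd0 k))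
      linarith
    have e2' : ∑ k ∈ Ico k₀ N, GW N R₁ S T (k + 1) (c (k + 1))
          (fun n n' m => gB β A b R (k + 1) n n' m - xB β A b R D (k + 1) n n' m)
        = G - ∑ k ∈ Ico k₀ N, GW N R₁ S T (k + 1) (c (k + 1)) (xB β A b R D (k + 1)) := by
      rw [hG, ← Finset.sum_sub_distrib]
      refine Finset.sum_congr rfl fun k _ => ?_
      unfold GW
      rw [← mul_sub, ← Finset.sum_sub_distrib]
      congr 1
      refine Finset.sum_congr rfl fun m _ => ?_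
      rw [← Finset.sum_sub_distrib]
      refine Finset.sum_congr rfl fun n _ => ?_
      split_ifs <;> ring
    have e3' : ∑ k ∈ Ico k₀ N, GW N R₁ S T (k + 1) (c (k + 1)) (xB β A b R D (k + 1)) ≤ Z :=
      Finset.sum_le_sum fun k hk => GW_xB_le hβ ht (by have := mem_Ico.1 hk; omega) _ _ R D
        (hA k (mem_Ico.1 hk).1 (mem_Ico.1 hk).2)
    rw [e2'] at ht'
    have e4' : 0 ≤ (μ⁻¹) ^ 2 * ∑ k ∈ Ico k₀ N, dd k :=
      mul_nonneg (sq_nonneg _) (Finset.sum_nonneg fun k _ => dd0 k)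
    nlinarith [ht', e1', e3', e4']
  have r := opt_mul X0 (add_nonneg Y0 (Finset.sum_nonneg fun k _ => dd0 k))
    (show (0 : ℝ) < 37 by norm_num) key
  have e : (2 : ℝ) * 37 = 74 := by norm_num
  rw [e] at r
  linarith

end gram

end

end Vale.Agent.P141.H258
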