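import Vale.Agent.P141.H460.AffFam
import Vale.Agent.P141.H795.Grid

/-!
# P141, line (A): packing of the nodes near affected squares (shifted grids)

* `nbQ D Q` : the squares at distance at most `D` (in cells of the same scale) of an affected one;
* `QPack.nb` : packing `(2 D + 1) ^ 4 c`; `gpack_nb` : packing of the cubes over such squares of the
  three faces (births of `A`, of `C`, of `b`);
* `tie_near`, `near1`, `near2`, `near3` : a node of a shifted grid whose `(x2, x3)`, `(x1, x3)`,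
  `(x1, x2)` square meets a standard affected square lies over `nbQ 6 Q`.
-/

namespace Vale.Agent.P141.H258

open Finset
open Vale.Agent.P141.PL (Pt iv ix cb cx mem_iv mem_cb card_iv card_cb ix_ix)
open Vale.Agent.P141.H460 (QPack GPack nA1 nA3 nAff gpack_aff)

noncomputable section

open scoped Classical

/-- the squares near an affected square, at fixed `x0` -/
def nbQ (D : ℕ) (Q : ℕ → Pt → Prop) (k : ℕ) (m : Pt) : Prop :=
  ∃ a b : ℤ, |a| ≤ D ∧ |b| ≤ D ∧ Q k (m.1, m.2.1 + a, m.2.2 + b)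

theorem nbQ_self {D : ℕ} {Q : ℕ → Pt → Prop} {k : ℕ} {m : Pt} (h : Q k m) : nbQ D Q k m :=
  ⟨0, 0, by simp, by simp, by simpa using h⟩

/-- a translate by at most `D` cells of an interval of cells -/
theorem iv_shift (j : ℕ) (r a : ℤ) (D : ℕ) (ha : |a| ≤ D) {f : ℤ → ℝ} (hf : ∀ x, 0 ≤ f x) :
    ∑ x ∈ iv j r, f (x + a) ≤ ∑ e ∈ Icc (-(D : ℤ)) D, ∑ x ∈ iv j (r + e), f x := by
  have h1 : ∑ x ∈ iv j r, f (x + a) = ∑ x ∈ (iv j r).image (· + a), f x := by
    rw [sum_image]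
    intro x _ y _ h
    simpa using h
  have h2 : (iv j r).image (· + a) ⊆ (Icc (-(D : ℤ)) D).biUnion fun e => iv j (r + e) := by
    intro x hx
    obtain ⟨y, hy, rfl⟩ := mem_image.1 hx
    rw [mem_biUnion]
    rw [abs_le] at ha
    unfold PL.iv at hy
    rw [mem_Ico] at hy
    have hq : (1 : ℤ) ≤ 2 ^ j := one_le_pow₀ (by norm_num)
    refine ⟨ix j (y + a) - r, ?_, ?_⟩
    · rw [mem_Icc]
      unfold PL.ix
      have hD : (0 : ℤ) ≤ D := by positivity
      constructor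
      · have : r - D ≤ (y + a) / 2 ^ j := by
          rw [Int.le_ediv_iff_mul_le (by positivity)]
          nlinarith [hy.1, ha.1]
        linarith
      · have : (y + a) / 2 ^ j < r + D + 1 := by
          rw [Int.ediv_lt_iff_lt_mul (by positivity)]
          nlinarith [hy.2, ha.2]
        linarith
    · rw [mem_iv]
      ring
  rw [h1]
  refine (sum_le_sum_of_subset_of_nonneg h2 fun x _ _ => hf x).trans (le_of_eq ?_)
  rw [sum_biUnion]
  intro e _ e' _ hee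
  rw [Function.onFun, disjoint_left]
  intro x hx hx'
  rw [mem_iv] at hx hx'
  exact hee (by linarith)

/-- **Packing of the near squares.** -/
theorem _root_.Vale.Agent.P141.H460.QPack.nb {n : ℕ} {Q : ℕ → Pt → Prop} {c : ℝ}
    (h : QPack n Q c) (D : ℕ) : QPack n (nbQ D Q) ((2 * D + 1) ^ 4 * c) := by
  intro x0 K hK r s
  have key : ∀ a ∈ Icc (-(D : ℤ)) D, ∀ b ∈ Icc (-(D : ℤ)) D,
      ∑ k ∈ range (K + 1), ∑ r' ∈ iv (K - k) r, ∑ s' ∈ iv (K - k) s,
        (if Q k (ix k x0, r' + a, s' + b) then (4 : ℝ) ^ k else 0) ≤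
      ((2 * D + 1) ^ 2 : ℝ) * (c * 4 ^ K) := by
    intro a ha b hb
    have ha' : |a| ≤ D := abs_le.2 (mem_Icc.1 ha)
    have hb' : |b| ≤ D := abs_le.2 (mem_Icc.1 hb)
    have h0 : ∀ (k : ℕ) (u v : ℤ),
        (0 : ℝ) ≤ if Q k (ix k x0, u, v) then (4 : ℝ) ^ k else 0 := by
      intro k u v
      split_ifs <;> positivity
    have h1 : ∀ k ∈ range (K + 1), ∑ r' ∈ iv (K - k) r, ∑ s' ∈ iv (K - k) s,
        (if Q k (ix k x0, r' + a, s' + b) then (4 : ℝ) ^ k else 0) ≤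
        ∑ e ∈ Icc (-(D : ℤ)) D, ∑ e' ∈ Icc (-(D : ℤ)) D, ∑ r' ∈ iv (K - k) (r + e),
          ∑ s' ∈ iv (K - k) (s + e'), (if Q k (ix k x0, r', s') then (4 : ℝ) ^ k else 0) := by
      intro k _
      have h2 : ∀ r' : ℤ, ∑ s' ∈ iv (K - k) s,
          (if Q k (ix k x0, r', s' + b) then (4 : ℝ) ^ k else 0) ≤
          ∑ e' ∈ Icc (-(D : ℤ)) D, ∑ s' ∈ iv (K - k) (s + e'),
            (if Q k (ix k x0, r', s') then (4 : ℝ) ^ k else 0) := fun r' =>
        iv_shift (K - k) s b D hb' (f := fun v => if Q k (ix k x0, r', v) then (4 : ℝ) ^ k else 0)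
          (fun v => h0 k r' v)
      have h3 := iv_shift (K - k) r a D ha' (f := fun u => ∑ e' ∈ Icc (-(D : ℤ)) D,
        ∑ s' ∈ iv (K - k) (s + e'), (if Q k (ix k x0, u, s') then (4 : ℝ) ^ k else 0))
        (fun u => sum_nonneg fun _ _ => sum_nonneg fun _ _ => h0 _ _ _)
      refine (sum_le_sum fun r' _ => h2 (r' + a)).trans (h3.trans (le_of_eq ?_))
      refine sum_congr rfl fun e _ => ?_
      rw [sum_comm]
    refine (sum_le_sum h1).trans ?_
    rw [sum_comm]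
    have h4 : ∀ e ∈ Icc (-(D : ℤ)) D, ∑ k ∈ range (K + 1), ∑ e' ∈ Icc (-(D : ℤ)) D,
        ∑ r' ∈ iv (K - k) (r + e), ∑ s' ∈ iv (K - k) (s + e'),
          (if Q k (ix k x0, r', s') then (4 : ℝ) ^ k else 0) ≤ (2 * D + 1) * (c * 4 ^ K) := by
      intro e _
      rw [sum_comm]
      refine (sum_le_sum fun e' _ => h x0 K hK (r + e) (s + e')).trans (le_of_eq ?_)
      rw [sum_const, nsmul_eq_mul, Int.card_Icc]
      congr 1
      have : ((D : ℤ) + 1 - -(D : ℤ)).toNat = 2 * D + 1 := by omega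
      rw [this]
      push_cast
      ring
    refine (sum_le_sum h4).trans (le_of_eq ?_)
    rw [sum_const, nsmul_eq_mul, Int.card_Icc]
    have : ((D : ℤ) + 1 - -(D : ℤ)).toNat = 2 * D + 1 := by omega
    rw [this]
    push_cast
    ring
  have hle : ∑ k ∈ range (K + 1), ∑ r' ∈ iv (K - k) r, ∑ s' ∈ iv (K - k) s,
      (if nbQ D Q k (ix k x0, r', s') then (4 : ℝ) ^ k else 0) ≤
      ∑ a ∈ Icc (-(D : ℤ)) D, ∑ b ∈ Icc (-(D : ℤ)) D, ∑ k ∈ range (K + 1),
        ∑ r' ∈ iv (K - k) r, ∑ s' ∈ iv (K - k) s,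
        (if Q k (ix k x0, r' + a, s' + b) then (4 : ℝ) ^ k else 0) := by
    have e1 : ∑ a ∈ Icc (-(D : ℤ)) D, ∑ b ∈ Icc (-(D : ℤ)) D, ∑ k ∈ range (K + 1),
        ∑ r' ∈ iv (K - k) r, ∑ s' ∈ iv (K - k) s,
        (if Q k (ix k x0, r' + a, s' + b) then (4 : ℝ) ^ k else 0) =
        ∑ k ∈ range (K + 1), ∑ r' ∈ iv (K - k) r, ∑ s' ∈ iv (K - k) s,
          ∑ p ∈ Icc (-(D : ℤ)) D ×ˢ Icc (-(D : ℤ)) D,
            (if Q k (ix k x0, r' + p.1, s' + p.2) then (4 : ℝ) ^ k else 0) := by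
      rw [← sum_product' (Icc (-(D : ℤ)) D) (Icc (-(D : ℤ)) D) (fun a b => ∑ k ∈ range (K + 1),
        ∑ r' ∈ iv (K - k) r, ∑ s' ∈ iv (K - k) s,
        (if Q k (ix k x0, r' + a, s' + b) then (4 : ℝ) ^ k else 0))]
      rw [sum_comm]
      refine sum_congr rfl fun k _ => ?_
      rw [sum_comm]
      refine sum_congr rfl fun r' _ => ?_
      rw [sum_comm]
    rw [e1]
    refine sum_le_sum fun k _ => sum_le_sum fun r' _ => sum_le_sum fun s' _ => ?_
    split_ifs with hq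
    · obtain ⟨a, b, ha, hb, hab⟩ := hq
      have hm : (a, b) ∈ Icc (-(D : ℤ)) D ×ˢ Icc (-(D : ℤ)) D := by
        rw [mem_product, mem_Icc, mem_Icc]
        exact ⟨abs_le.1 ha, abs_le.1 hb⟩
      refine le_trans (le_of_eq ?_) (single_le_sum (f := fun p : ℤ × ℤ =>
        if Q k (ix k x0, r' + p.1, s' + p.2) then (4 : ℝ) ^ k else 0) (fun p _ => ?_) hm)
      · exact (if_pos hab).symm
      · split_ifs <;> positivity
    · refine sum_nonneg fun p _ => ?_
      split_ifs <;> positivity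
  refine hle.trans ((sum_le_sum fun a ha => sum_le_sum fun b hb => key a ha b hb).trans
    (le_of_eq ?_))
  rw [sum_const, sum_const, nsmul_eq_mul, nsmul_eq_mul, Int.card_Icc]
  have : ((D : ℤ) + 1 - -(D : ℤ)).toNat = 2 * D + 1 := by omega
  rw [this]
  push_cast
  ring

/-- **Packing of the cubes over the near squares of the three faces.** -/
theorem gpack_nb {n : ℕ} {Q1 Q2 Q3 : ℕ → Pt → Prop} {c1 c2 c3 : ℝ} (h1 : QPack n Q1 c1)
    (h2 : QPack n Q2 c2) (h3 : QPack n Q3 c3) (D : ℕ) {o : ℤ} (ho : o = 1 ∨ o = -1) {K : ℕ}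
    (hK : K ≤ n) : GPack (nAff o (nbQ D Q1) (nbQ D Q2) (nbQ D Q3)) K
      ((2 * D + 1) ^ 4 * (3 * c1 + c2 + 3 * c3)) := by
  have h := gpack_aff (h1.nb D) (h2.nb D) (h3.nb D) ho hK
  have e : 3 * ((2 * D + 1 : ℝ) ^ 4 * c1) + ((2 * D + 1) ^ 4 * c2 + 3 * ((2 * D + 1) ^ 4 * c3)) =
      (2 * D + 1) ^ 4 * (3 * c1 + c2 + 3 * c3) := by ring
  rw [← e]
  exact h

/-! ### Nodes of a shifted grid -/

theorem ix_spec (k : ℕ) (x : ℤ) : ix k x * 2 ^ k ≤ x ∧ x < ix k x * 2 ^ k + 2 ^ k := by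
  have hq : (0 : ℤ) < 2 ^ k := by positivity
  unfold PL.ix
  have h1 := Int.emod_add_mul_ediv x (2 ^ k)
  have h2 := Int.emod_nonneg x hq.ne'
  have h3 := Int.emod_lt_of_pos x hq
  constructor <;> nlinarith

theorem lt_of_mul {a b q : ℤ} (hq : 0 < q) (h : a * q < b * q) : a < b :=
  lt_of_mul_lt_mul_right h hq.le

/-- **The tie on a shifted grid**, up to `6` cells. -/
theorem tie_near {k : ℕ} {s : Pt} {x0 y1 y2 y3 j : ℤ} (hj : 0 ≤ j) (hj2 : j ≤ 2) {o : ℤ}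
    (ho : o = 1 ∨ o = -1)
    (h : ix k y1 + ix k y2 + ix k y3 = ix k (H795.ys (-x0) s) - j) :
    |ix k (y2 + s.2.1) - (o - 2 - ix k x0 - ix k (y1 + s.1) - ix k (y3 + s.2.2))| ≤ 6 := by
  have hq : (0 : ℤ) < 2 ^ k := by positivity
  have hq1 : (1 : ℤ) ≤ 2 ^ k := one_le_pow₀ (by norm_num)
  obtain ⟨a1, a2⟩ := ix_spec k y1
  obtain ⟨b1, b2⟩ := ix_spec k y2
  obtain ⟨c1, c2⟩ := ix_spec k y3
  obtain ⟨d1, d2⟩ := ix_spec k (H795.ys (-x0) s)
  obtain ⟨e1, e2⟩ := ix_spec k x0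
  obtain ⟨f1, f2⟩ := ix_spec k (y1 + s.1)
  obtain ⟨g1, g2⟩ := ix_spec k (y2 + s.2.1)
  obtain ⟨i1, i2⟩ := ix_spec k (y3 + s.2.2)
  have hys : H795.ys (-x0) s = -x0 + 3 - s.1 - s.2.1 - s.2.2 := rfl
  rw [hys] at d1 d2 h
  set q : ℤ := 2 ^ k with hqd
  set A1 := ix k y1
  set A2 := ix k y2
  set A3 := ix k y3
  set Y := ix k (-x0 + 3 - s.1 - s.2.1 - s.2.2)
  set X0 := ix k x0
  set N1 := ix k (y1 + s.1)
  set N2 := ix k (y2 + s.2.1)
  set N3 := ix k (y3 + s.2.2)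
  have hY : Y * q = (A1 + A2 + A3 + j) * q := by rw [show Y = A1 + A2 + A3 + j by linarith]
  have hY' : Y * q = A1 * q + A2 * q + A3 * q + j * q := by rw [hY]; ring
  have hjq : 0 ≤ j * q := by positivity
  have hjq2 : j * q ≤ 2 * q := by nlinarith
  have u1 : (-7 : ℤ) < N1 + N2 + N3 + X0 := by
    refine lt_of_mul hq ?_
    have e : (N1 + N2 + N3 + X0) * q = N1 * q + N2 * q + N3 * q + X0 * q := by ring
    rw [e]
    linarith
  have u2 : N1 + N2 + N3 + X0 < 4 := by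
    refine lt_of_mul hq ?_
    have e : (N1 + N2 + N3 + X0) * q = N1 * q + N2 * q + N3 * q + X0 * q := by ring
    rw [e]
    linarith
  rw [abs_le]
  rcases ho with rfl | rfl <;> constructor <;> linarith

/-- two points of a cell of a shifted grid -/
theorem cell_near {k : ℕ} {a y z : ℤ} (h : ix k y = ix k z) : |ix k (y + a) - ix k (z + a)| ≤ 1 := by
  have hq : (0 : ℤ) < 2 ^ k := by positivity
  obtain ⟨a1, a2⟩ := ix_spec k y
  obtain ⟨b1, b2⟩ := ix_spec k z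
  obtain ⟨f1, f2⟩ := ix_spec k (y + a)
  obtain ⟨g1, g2⟩ := ix_spec k (z + a)
  rw [h] at a1 a2
  have u1 : ix k (y + a) - ix k (z + a) < 2 := by
    refine lt_of_mul hq ?_
    rw [sub_mul]
    linarith
  have u2 : (-2 : ℤ) < ix k (y + a) - ix k (z + a) := by
    refine lt_of_mul hq ?_
    rw [sub_mul]
    linarith
  rw [abs_le]
  constructor <;> linarith

/-- **A square of `(x2, x3)` of a node which meets an affected square.** `(y1, y3)` any point of the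
node, `(y2', y3')` the point of the affected square. -/
theorem near1 {Q : ℕ → Pt → Prop} {k : ℕ} {s : Pt} {x0 y1 y3 y2' y3' j : ℤ} (hj : 0 ≤ j)
    (hj2 : j ≤ 2) {o : ℤ} (ho : o = 1 ∨ o = -1)
    (h : ix k y1 + ix k y2' + ix k y3 = ix k (H795.ys (-x0) s) - j) (h3 : ix k y3' = ix k y3)
    (hQ : Q k (ix k x0, ix k (y2' + s.2.1), ix k (y3' + s.2.2))) :
    nA1 o (nbQ 6 Q) k (ix k x0, ix k (y1 + s.1), ix k (y3 + s.2.2)) := by
  have t := tie_near hj hj2 ho h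
  have c := cell_near (a := s.2.2) h3
  refine ⟨ix k (y2' + s.2.1) - (o - 2 - ix k x0 - ix k (y1 + s.1) - ix k (y3 + s.2.2)),
    ix k (y3' + s.2.2) - ix k (y3 + s.2.2), by exact_mod_cast t, ?_, ?_⟩
  · exact c.trans (by norm_num)
  · have e1 : o - 2 - ix k x0 - ix k (y1 + s.1) - ix k (y3 + s.2.2) +
        (ix k (y2' + s.2.1) - (o - 2 - ix k x0 - ix k (y1 + s.1) - ix k (y3 + s.2.2))) =
        ix k (y2' + s.2.1) := by ring
    have e2 : ix k (y3 + s.2.2) + (ix k (y3' + s.2.2) - ix k (y3 + s.2.2)) =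
        ix k (y3' + s.2.2) := by ring
    simp only [e1, e2]
    exact hQ

/-- **A square of `(x1, x2)` of a node which meets an affected square.** -/
theorem near3 {Q : ℕ → Pt → Prop} {k : ℕ} {s : Pt} {x0 y1 y3 y1' y2' j : ℤ} (hj : 0 ≤ j)
    (hj2 : j ≤ 2) {o : ℤ} (ho : o = 1 ∨ o = -1)
    (h : ix k y1 + ix k y2' + ix k y3 = ix k (H795.ys (-x0) s) - j) (h1 : ix k y1' = ix k y1)
    (hQ : Q k (ix k x0, ix k (y1' + s.1), ix k (y2' + s.2.1))) :
    nA3 o (nbQ 6 Q) k (ix k x0, ix k (y1 + s.1), ix k (y3 + s.2.2)) := by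
  have t := tie_near hj hj2 ho h
  have c := cell_near (a := s.1) h1
  refine ⟨ix k (y1' + s.1) - ix k (y1 + s.1),
    ix k (y2' + s.2.1) - (o - 2 - ix k x0 - ix k (y1 + s.1) - ix k (y3 + s.2.2)), ?_,
    by exact_mod_cast t, ?_⟩
  · exact c.trans (by norm_num)
  · have e1 : o - 2 - ix k x0 - ix k (y1 + s.1) - ix k (y3 + s.2.2) +
        (ix k (y2' + s.2.1) - (o - 2 - ix k x0 - ix k (y1 + s.1) - ix k (y3 + s.2.2))) =
        ix k (y2' + s.2.1) := by ring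
    have e2 : ix k (y1 + s.1) + (ix k (y1' + s.1) - ix k (y1 + s.1)) = ix k (y1' + s.1) := by ring
    simp only [e1, e2]
    exact hQ

/-- **A square of `(x1, x3)` of a node which meets an affected square.** -/
theorem near2 {Q : ℕ → Pt → Prop} {k : ℕ} {s : Pt} {x0 y1 y3 y1' y3' : ℤ}
    (h1 : ix k y1' = ix k y1) (h3 : ix k y3' = ix k y3)
    (hQ : Q k (ix k x0, ix k (y1' + s.1), ix k (y3' + s.2.2))) :
    nbQ 6 Q k (ix k x0, ix k (y1 + s.1), ix k (y3 + s.2.2)) := by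
  have c1 := cell_near (a := s.1) h1
  have c3 := cell_near (a := s.2.2) h3
  refine ⟨ix k (y1' + s.1) - ix k (y1 + s.1), ix k (y3' + s.2.2) - ix k (y3 + s.2.2),
    c1.trans (by norm_num), c3.trans (by norm_num), ?_⟩
  have e1 : ix k (y1 + s.1) + (ix k (y1' + s.1) - ix k (y1 + s.1)) = ix k (y1' + s.1) := by ring
  have e2 : ix k (y3 + s.2.2) + (ix k (y3' + s.2.2) - ix k (y3 + s.2.2)) =
      ix k (y3' + s.2.2) := by ring
  simp only [e1, e2]
  exact hQ

end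

end Vale.Agent.P141.H258
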