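import Mathlib

/-!
P141 line (A), F5: closure of the level recursion (numbers only).

`rec_max`     : o j ≤ e + c Σ_{i ∈ Icc j J} √(o i) √q  for all j ≤ J
                ⟹ o j ≤ 2 e + c² (J+1)² q;
`own_levels`  : potentials `V j k` (level j, scale k), gains `G j k ≥ 0`, number `w k`;
                V j (k+1) + G j k ≤ V j k + c Σ_{i ∈ Icc j J} √(G i k) √(w k)
                ⟹ V j N + Σ_{k<N} G j k ≤ 2 e + c² (J+1)² Σ_{k<N} w k;
`node_cs`     : Cauchy-Schwarz over nodes and levels.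
-/

namespace Vale.Agent.P141.H258

open Finset

/-- closure of the recursion over the levels -/
theorem rec_max {J : ℕ} {o : ℕ → ℝ} {e c q : ℝ} (ho : ∀ j, j ≤ J → 0 ≤ o j)
    (hc : 0 ≤ c) (hq : 0 ≤ q)
    (h : ∀ j, j ≤ J → o j ≤ e + c * ∑ i ∈ Icc j J, Real.sqrt (o i) * Real.sqrt q) :
    ∀ j, j ≤ J → o j ≤ 2 * e + c ^ 2 * ((J : ℝ) + 1) ^ 2 * q := by
  obtain ⟨j0, hj0, hmax⟩ := exists_max_image (range (J + 1)) o ⟨0, by simp⟩
  have hj0' : j0 ≤ J := by simpa [Nat.lt_succ_iff] using hj0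
  set O := o j0 with hO
  have hO0 : 0 ≤ O := ho j0 hj0'
  have hle : ∀ i, i ≤ J → o i ≤ O := fun i hi => hmax i (by simpa [Nat.lt_succ_iff] using hi)
  have hsum : ∀ j, j ≤ J →
      ∑ i ∈ Icc j J, Real.sqrt (o i) * Real.sqrt q ≤ ((J : ℝ) + 1) * (Real.sqrt O * Real.sqrt q) := by
    intro j hj
    have h1 : ∀ i ∈ Icc j J, Real.sqrt (o i) * Real.sqrt q ≤ Real.sqrt O * Real.sqrt q := by
      intro i hi
      exact mul_le_mul_of_nonneg_right (Real.sqrt_le_sqrt (hle i (mem_Icc.1 hi).2))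
        (Real.sqrt_nonneg _)
    have h2 := Finset.sum_le_card_nsmul _ _ _ h1
    refine h2.trans ?_
    rw [nsmul_eq_mul]
    refine mul_le_mul_of_nonneg_right ?_ (by positivity)
    rw [Nat.card_Icc]
    have : J + 1 - j ≤ J + 1 := Nat.sub_le _ _
    exact_mod_cast this
  have hmain : O ≤ 2 * e + c ^ 2 * ((J : ℝ) + 1) ^ 2 * q := by
    have h1 := h j0 hj0'
    have h2 := hsum j0 hj0'
    have h3 : O ≤ e + c * (((J : ℝ) + 1) * (Real.sqrt O * Real.sqrt q)) :=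
      h1.trans (by
        have := mul_le_mul_of_nonneg_left h2 hc
        linarith)
    have h4 : Real.sqrt O ^ 2 = O := Real.sq_sqrt hO0
    have h5 : Real.sqrt q ^ 2 = q := Real.sq_sqrt hq
    have h6 := sq_nonneg (Real.sqrt O - c * ((J : ℝ) + 1) * Real.sqrt q)
    have h7 : (Real.sqrt O - c * ((J : ℝ) + 1) * Real.sqrt q) ^ 2
        = Real.sqrt O ^ 2 - 2 * (c * (((J : ℝ) + 1) * (Real.sqrt O * Real.sqrt q)))
          + c ^ 2 * ((J : ℝ) + 1) ^ 2 * Real.sqrt q ^ 2 := by ring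
    rw [h7, h4, h5] at h6
    linarith
  intro j hj
  exact (hle j hj).trans hmain

/-- the telescope over the scales and the levels together -/
theorem own_levels {N J : ℕ} {V G : ℕ → ℕ → ℝ} {w : ℕ → ℝ} {e c : ℝ}
    (hV : ∀ j, j ≤ J → 0 ≤ V j N) (hG : ∀ j, j ≤ J → ∀ k, k < N → 0 ≤ G j k)
    (hw : ∀ k, k < N → 0 ≤ w k) (he : 0 ≤ e) (hc : 0 ≤ c)
    (hend : ∀ j, j ≤ J → V j 0 ≤ e)
    (hstep : ∀ j, j ≤ J → ∀ k, k < N →
      V j (k + 1) + G j k ≤ V j k + c * ∑ i ∈ Icc j J, Real.sqrt (G i k) * Real.sqrt (w k)) :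
    ∀ j, j ≤ J → V j N + ∑ k ∈ range N, G j k
      ≤ 2 * e + c ^ 2 * ((J : ℝ) + 1) ^ 2 * ∑ k ∈ range N, w k := by
  have hq : 0 ≤ ∑ k ∈ range N, w k := sum_nonneg fun k hk => hw k (mem_range.1 hk)
  have htel : ∀ j, j ≤ J → V j N + ∑ k ∈ range N, G j k
      ≤ e + c * ∑ i ∈ Icc j J, Real.sqrt (∑ k ∈ range N, G i k)
        * Real.sqrt (∑ k ∈ range N, w k) := by
    intro j hj
    have h1 : ∀ n, n ≤ N → V j n + ∑ k ∈ range n, G j k ≤ V j 0
        + ∑ k ∈ range n, c * ∑ i ∈ Icc j J, Real.sqrt (G i k) * Real.sqrt (w k) := by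
      intro n
      induction n with
      | zero => intro _; simp
      | succ n ih =>
        intro hn
        have h2 := ih (by omega)
        have h3 := hstep j hj n (by omega)
        rw [sum_range_succ, sum_range_succ]
        linarith
    have h2 := h1 N le_rfl
    have h3 : ∑ k ∈ range N, c * ∑ i ∈ Icc j J, Real.sqrt (G i k) * Real.sqrt (w k)
        ≤ c * ∑ i ∈ Icc j J, Real.sqrt (∑ k ∈ range N, G i k)
          * Real.sqrt (∑ k ∈ range N, w k) := by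
      rw [← mul_sum, sum_comm]
      refine mul_le_mul_of_nonneg_left ?_ hc
      refine sum_le_sum fun i hi => ?_
      have hiJ := (mem_Icc.1 hi).2
      rw [← Real.sqrt_mul (sum_nonneg fun k hk => hG i hiJ k (mem_range.1 hk))]
      refine Real.le_sqrt_of_sq_le ?_
      refine (sum_mul_sq_le_sq_mul_sq _ _ _).trans (le_of_eq ?_)
      congr 1
      · exact sum_congr rfl fun k hk => Real.sq_sqrt (hG i hiJ k (mem_range.1 hk))
      · exact sum_congr rfl fun k hk => Real.sq_sqrt (hw k (mem_range.1 hk))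
    have h4 := hend j hj
    linarith
  have hrec : ∀ j, j ≤ J → ∑ k ∈ range N, G j k
      ≤ 2 * e + c ^ 2 * ((J : ℝ) + 1) ^ 2 * ∑ k ∈ range N, w k := by
    refine rec_max (o := fun j => ∑ k ∈ range N, G j k)
      (fun j hj => sum_nonneg fun k hk => hG j hj k (mem_range.1 hk)) hc hq ?_
    intro j hj
    have := htel j hj
    have := hV j hj
    linarith
  -- once more, now with the potential kept
  intro j hj
  have h1 := htel j hj
  have h2 : ∀ i ∈ Icc j J, Real.sqrt (∑ k ∈ range N, G i k) * Real.sqrt (∑ k ∈ range N, w k)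
      ≤ Real.sqrt (2 * e + c ^ 2 * ((J : ℝ) + 1) ^ 2 * ∑ k ∈ range N, w k)
        * Real.sqrt (∑ k ∈ range N, w k) := fun i hi =>
    mul_le_mul_of_nonneg_right (Real.sqrt_le_sqrt (hrec i (mem_Icc.1 hi).2)) (Real.sqrt_nonneg _)
  have h3 := Finset.sum_le_card_nsmul _ _ _ h2
  have h4 : ((Icc j J).card : ℝ) ≤ (J : ℝ) + 1 := by
    rw [Nat.card_Icc]
    have : J + 1 - j ≤ J + 1 := Nat.sub_le _ _
    exact_mod_cast this
  rw [nsmul_eq_mul] at h3
  set Q := ∑ k ∈ range N, w k with hQ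
  set T := 2 * e + c ^ 2 * ((J : ℝ) + 1) ^ 2 * Q with hT
  have hT0 : 0 ≤ T := by positivity
  have h5 : c * ∑ i ∈ Icc j J, Real.sqrt (∑ k ∈ range N, G i k) * Real.sqrt Q
      ≤ c * (((J : ℝ) + 1) * (Real.sqrt T * Real.sqrt Q)) :=
    mul_le_mul_of_nonneg_left (h3.trans
      (mul_le_mul_of_nonneg_right h4 (by positivity))) hc
  have h6 : Real.sqrt T ^ 2 = T := Real.sq_sqrt hT0
  have h7 : Real.sqrt Q ^ 2 = Q := Real.sq_sqrt hq
  have h8 := sq_nonneg (Real.sqrt T - c * ((J : ℝ) + 1) * Real.sqrt Q)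
  have h9 : (Real.sqrt T - c * ((J : ℝ) + 1) * Real.sqrt Q) ^ 2
      = Real.sqrt T ^ 2 - 2 * (c * (((J : ℝ) + 1) * (Real.sqrt T * Real.sqrt Q)))
        + c ^ 2 * ((J : ℝ) + 1) ^ 2 * Real.sqrt Q ^ 2 := by ring
  rw [h9, h6, h7] at h8
  linarith

/-- Cauchy-Schwarz over the nodes, all levels together: the losses of one scale -/
theorem node_cs {ι : Type*} (s : Finset ι) {j J : ℕ} {g : ℕ → ι → ℝ} {w : ι → ℝ}
    (hg : ∀ i, i ≤ J → ∀ x ∈ s, 0 ≤ g i x) (hw : ∀ x ∈ s, 0 ≤ w x) :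
    ∑ x ∈ s, ∑ i ∈ Icc j J, Real.sqrt (g i x) * Real.sqrt (w x)
      ≤ ∑ i ∈ Icc j J, Real.sqrt (∑ x ∈ s, g i x) * Real.sqrt (∑ x ∈ s, w x) := by
  rw [sum_comm]
  refine sum_le_sum fun i hi => ?_
  have hiJ := (mem_Icc.1 hi).2
  rw [← Real.sqrt_mul (sum_nonneg fun x hx => hg i hiJ x hx)]
  refine Real.le_sqrt_of_sq_le ?_
  refine (sum_mul_sq_le_sq_mul_sq _ _ _).trans (le_of_eq ?_)
  congr 1
  · exact sum_congr rfl fun x hx => Real.sq_sqrt (hg i hiJ x hx)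
  · exact sum_congr rfl fun x hx => Real.sq_sqrt (hw x hx)

end Vale.Agent.P141.H258
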